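import Vale.Agent.P354XS.Iface
import Vale.Agent.P354T.Basic

/-!
The topology of the space DA: seminorms wq and qm, balls, a distance, first countability.
-/

open scoped ContDiff ENNReal
open Set Filter Topology

namespace Vale.Agent.P354XQ

open Vale.Agent.P354I (X Dat)
open Vale.Agent.P354T (Sm DSm iter_add iter_sub exists_real_lt pow_pos')
open Vale.Agent.P354XS

/-- A weight which is not negative. -/
def Nn (w : X → ℝ) : Prop := ∀ y ≠ 0, 0 ≤ w y

lemma wi_pos {y : X} (hy : y ≠ 0) : 0 < wi y := by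
  have := norm_pos_iff.2 hy
  unfold wi
  positivity

lemma nn_wi : Nn wi := fun _ hy => (wi_pos hy).le

lemma nn_one : Nn 1 := fun _ _ => zero_le_one

/-- One term of wq. -/
noncomputable def q1 (w : X → ℝ) (j : ℕ) (F : X → ℝ) : ℝ≥0∞ :=
  ⨆ y : X, ⨆ _ : y ≠ 0, ENNReal.ofReal (w y * ‖y‖ ^ (2 + j) * ‖iteratedFDeriv ℝ j F y‖)

lemma wq_eq (w : X → ℝ) (m : ℕ) (F : X → ℝ) :
    wq w m F = ∑ j ∈ Finset.range (m + 1), q1 w j F := rfl

lemma le_q1 (w : X → ℝ) (j : ℕ) (F : X → ℝ) {y : X} (hy : y ≠ 0) :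
    ENNReal.ofReal (w y * ‖y‖ ^ (2 + j) * ‖iteratedFDeriv ℝ j F y‖) ≤ q1 w j F :=
  le_iSup₂_of_le (f := fun (y : X) (_ : y ≠ 0) =>
    ENNReal.ofReal (w y * ‖y‖ ^ (2 + j) * ‖iteratedFDeriv ℝ j F y‖)) y hy le_rfl

lemma q1_add_le {w : X → ℝ} (hw : Nn w) (j : ℕ) {F G : X → ℝ} (hF : Sm F) (hG : Sm G) :
    q1 w j (fun y => F y + G y) ≤ q1 w j F + q1 w j G := by
  refine iSup₂_le fun y hy => ?_
  refine le_trans ?_ (add_le_add (le_q1 w j F hy) (le_q1 w j G hy))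
  refine le_trans (ENNReal.ofReal_le_ofReal ?_) ENNReal.ofReal_add_le
  rw [iter_add hF hG j hy, ← mul_add]
  exact mul_le_mul_of_nonneg_left (norm_add_le _ _) (mul_nonneg (hw y hy) (by positivity))

lemma q1_neg (w : X → ℝ) (j : ℕ) (F : X → ℝ) : q1 w j (fun y => -F y) = q1 w j F := by
  unfold q1
  refine iSup_congr fun y => iSup_congr fun _ => ?_
  have : iteratedFDeriv ℝ j (fun y => -F y) y = -iteratedFDeriv ℝ j F y := iteratedFDeriv_neg_apply
  rw [this, norm_neg]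

lemma q1_zero (w : X → ℝ) (j : ℕ) : q1 w j (fun _ => 0) = 0 := by
  unfold q1
  simp

lemma q1_congr (w : X → ℝ) (j : ℕ) {F G : X → ℝ} (h : ∀ y ≠ 0, F y = G y) :
    q1 w j F = q1 w j G := by
  unfold q1
  refine iSup_congr fun y => iSup_congr fun hy => ?_
  have : F =ᶠ[𝓝 y] G := by
    filter_upwards [isOpen_compl_singleton.mem_nhds hy] with z hz using h z hz
  rw [(this.iteratedFDeriv ℝ j).eq_of_nhds]

lemma wq_add_le {w : X → ℝ} (hw : Nn w) (m : ℕ) {F G : X → ℝ} (hF : Sm F) (hG : Sm G) :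
    wq w m (fun y => F y + G y) ≤ wq w m F + wq w m G := by
  rw [wq_eq, wq_eq, wq_eq, ← Finset.sum_add_distrib]
  exact Finset.sum_le_sum fun j _ => q1_add_le hw j hF hG

lemma wq_neg (w : X → ℝ) (m : ℕ) (F : X → ℝ) : wq w m (fun y => -F y) = wq w m F := by
  rw [wq_eq, wq_eq]
  exact Finset.sum_congr rfl fun j _ => q1_neg w j F

lemma wq_zero (w : X → ℝ) (m : ℕ) : wq w m (fun _ => 0) = 0 := by
  rw [wq_eq]
  exact Finset.sum_eq_zero fun j _ => q1_zero w j

lemma wq_congr (w : X → ℝ) (m : ℕ) {F G : X → ℝ} (h : ∀ y ≠ 0, F y = G y) :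
    wq w m F = wq w m G := by
  rw [wq_eq, wq_eq]
  exact Finset.sum_congr rfl fun j _ => q1_congr w j h

lemma wq_mono (w : X → ℝ) {m m' : ℕ} (h : m ≤ m') (F : X → ℝ) : wq w m F ≤ wq w m' F := by
  rw [wq_eq, wq_eq]
  exact Finset.sum_le_sum_of_subset (Finset.range_mono (by omega))

lemma wq_sub_comm (w : X → ℝ) (m : ℕ) (F G : X → ℝ) :
    wq w m (fun y => F y - G y) = wq w m (fun y => G y - F y) := by
  rw [← wq_neg]
  simp only [neg_sub]

lemma wq_tri {w : X → ℝ} (hw : Nn w) (m : ℕ) {F G H : X → ℝ} (hF : Sm F) (hG : Sm G)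
    (hH : Sm H) :
    wq w m (fun y => F y - H y) ≤ wq w m (fun y => F y - G y) + wq w m (fun y => G y - H y) := by
  refine le_trans (le_of_eq ?_) (wq_add_le hw m (hF.sub hG) (hG.sub hH))
  simp only [sub_add_sub_cancel]

lemma q1_le_wq (w : X → ℝ) {j m : ℕ} (h : j ≤ m) (F : X → ℝ) : q1 w j F ≤ wq w m F := by
  rw [wq_eq]
  exact Finset.single_le_sum (f := fun j => q1 w j F) (fun _ _ => zero_le)
    (Finset.mem_range.2 (by omega))

/-- Pointwise bound from wq. -/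
lemma le_of_wq {w : X → ℝ} {j m : ℕ} (h : j ≤ m) {F : X → ℝ} {η : ℝ} (hη : 0 ≤ η)
    (hF : wq w m F ≤ ENNReal.ofReal η) {y : X} (hy : y ≠ 0) :
    w y * ‖y‖ ^ (2 + j) * ‖iteratedFDeriv ℝ j F y‖ ≤ η :=
  (ENNReal.ofReal_le_ofReal_iff hη).1 ((le_q1 w j F hy).trans ((q1_le_wq w h F).trans hF))

lemma sum_range_le {m : ℕ} {f : ℕ → ℝ≥0∞} {η : ℝ} (h : ∀ j ≤ m, f j ≤ ENNReal.ofReal η) :
    ∑ j ∈ Finset.range (m + 1), f j ≤ ENNReal.ofReal ((m + 1) * η) := by
  calc ∑ j ∈ Finset.range (m + 1), f j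
      ≤ ∑ j ∈ Finset.range (m + 1), ENNReal.ofReal η :=
        Finset.sum_le_sum fun j hj => h j (by have := Finset.mem_range.1 hj; omega)
    _ = ENNReal.ofReal ((m + 1) * η) := by
        rw [Finset.sum_const, Finset.card_range, nsmul_eq_mul, ENNReal.ofReal_mul (by positivity)]
        congr 1
        rw [show ((m : ℝ) + 1) = ((m + 1 : ℕ) : ℝ) by push_cast; ring, ENNReal.ofReal_natCast]

/-- wq from pointwise bounds. -/
lemma wq_le_of {w : X → ℝ} {m : ℕ} {F : X → ℝ} {η : ℝ}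
    (hF : ∀ j ≤ m, ∀ y ≠ 0, w y * ‖y‖ ^ (2 + j) * ‖iteratedFDeriv ℝ j F y‖ ≤ η) :
    wq w m F ≤ ENNReal.ofReal ((m + 1) * η) := by
  rw [wq_eq]
  exact sum_range_le fun j hj => iSup₂_le fun y hy => ENNReal.ofReal_le_ofReal (hF j hj y hy)

lemma qm_self (m : ℕ) (d : Dat) : qm m d d = 0 := by
  simp [qm, wq_zero]

lemma qm_comm (m : ℕ) (d d' : Dat) : qm m d d' = qm m d' d := by
  unfold qm
  refine Finset.sum_congr rfl fun i _ => Finset.sum_congr rfl fun j _ => ?_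
  rw [wq_sub_comm wi m (fun y => d.h y i j), wq_sub_comm 1 m (fun y => d.K y i j)]

lemma qm_tri (m : ℕ) {d d' d'' : Dat} (h : DSm d) (h' : DSm d') (h'' : DSm d'') :
    qm m d d'' ≤ qm m d d' + qm m d' d'' := by
  unfold qm
  rw [← Finset.sum_add_distrib]
  refine Finset.sum_le_sum fun i _ => ?_
  rw [← Finset.sum_add_distrib]
  refine Finset.sum_le_sum fun j _ => ?_
  rw [add_add_add_comm]
  exact add_le_add (wq_tri nn_wi m (h i j).1 (h' i j).1 (h'' i j).1)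
    (wq_tri nn_one m (h i j).2 (h' i j).2 (h'' i j).2)

lemma qm_mono {m m' : ℕ} (h : m ≤ m') (d d' : Dat) : qm m d d' ≤ qm m' d d' :=
  Finset.sum_le_sum fun _ _ => Finset.sum_le_sum fun _ _ =>
    add_le_add (wq_mono _ h _) (wq_mono _ h _)

lemma qm_congr (m : ℕ) {d1 d2 d1' d2' : Dat} (h1 : P354I.Eqv d1 d1') (h2 : P354I.Eqv d2 d2') :
    qm m d1 d2 = qm m d1' d2' := by
  unfold qm
  refine Finset.sum_congr rfl fun i _ => Finset.sum_congr rfl fun j _ => ?_
  rw [wq_congr wi m (G := fun y => d1'.h y i j - d2'.h y i j) fun y hy => by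
      rw [(h1 y hy).1, (h2 y hy).1],
    wq_congr 1 m (G := fun y => d1'.K y i j - d2'.K y i j) fun y hy => by
      rw [(h1 y hy).2, (h2 y hy).2]]

/-- The parts of qm. -/
lemma qm_parts {m : ℕ} {d d' : Dat} {η : ℝ≥0∞} (h : qm m d d' ≤ η) (i j : Fin 3) :
    wq wi m (fun y => d.h y i j - d'.h y i j) ≤ η ∧
      wq 1 m (fun y => d.K y i j - d'.K y i j) ≤ η := by
  have h1 : wq wi m (fun y => d.h y i j - d'.h y i j) +
      wq 1 m (fun y => d.K y i j - d'.K y i j) ≤ η := by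
    refine le_trans ?_ h
    refine le_trans ?_ (Finset.single_le_sum (f := fun i => ∑ j,
      (wq wi m (fun y => d.h y i j - d'.h y i j) + wq 1 m (fun y => d.K y i j - d'.K y i j)))
      (fun _ _ => zero_le) (Finset.mem_univ i))
    exact Finset.single_le_sum (f := fun j =>
      wq wi m (fun y => d.h y i j - d'.h y i j) + wq 1 m (fun y => d.K y i j - d'.K y i j))
      (fun _ _ => zero_le) (Finset.mem_univ j)
  exact ⟨le_self_add.trans h1, le_add_self.trans h1⟩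

/-- qm from its parts. -/
lemma qm_le_of {m : ℕ} {d d' : Dat} {η : ℝ} (hη : 0 ≤ η)
    (h : ∀ i j, wq wi m (fun y => d.h y i j - d'.h y i j) ≤ ENNReal.ofReal η ∧
      wq 1 m (fun y => d.K y i j - d'.K y i j) ≤ ENNReal.ofReal η) :
    qm m d d' ≤ ENNReal.ofReal (18 * η) := by
  calc qm m d d' ≤ ∑ _i : Fin 3, ∑ _j : Fin 3, (ENNReal.ofReal η + ENNReal.ofReal η) :=
        Finset.sum_le_sum fun i _ => Finset.sum_le_sum fun j _ => add_le_add (h i j).1 (h i j).2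
    _ = ENNReal.ofReal (18 * η) := by
        simp only [Fin.sum_univ_three]
        repeat rw [← ENNReal.ofReal_add (by positivity) (by positivity)]
        congr 1
        ring

variable {M a : ℝ}

lemma dsm (d : DA M a) : DSm d.1 := d.2.1.1

/-- The ball of radius ε for q_m. -/
def ball (d : DA M a) (m : ℕ) (ε : ℝ≥0∞) : Set (DA M a) := {d' | qm m d'.1 d.1 < ε}

lemma isOpen_ball' (d : DA M a) (m : ℕ) (ε : ℝ≥0∞) : IsOpen (ball d m ε) :=
  TopologicalSpace.isOpen_generateFrom_of_mem ⟨d, m, ε, rfl⟩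

lemma mem_ball_self' (d : DA M a) (m : ℕ) {ε : ℝ≥0∞} (h : 0 < ε) : d ∈ ball d m ε := by
  show qm m d.1 d.1 < ε
  rwa [qm_self]

lemma ball_mem_nhds (d : DA M a) (m : ℕ) {ε : ℝ≥0∞} (h : 0 < ε) : ball d m ε ∈ 𝓝 d :=
  (isOpen_ball' d m ε).mem_nhds (mem_ball_self' d m h)

lemma isOpen_iff_ball {S : Set (DA M a)} :
    IsOpen S ↔ ∀ d ∈ S, ∃ m ε, 0 < ε ∧ ball d m ε ⊆ S := by
  constructor
  · intro h
    induction h with
    | basic t ht =>
      obtain ⟨d0, m, ε, rfl⟩ := ht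
      intro d hd
      have hd' : qm m d.1 d0.1 < ε := hd
      obtain ⟨r, hr0, hr⟩ := ENNReal.lt_iff_exists_add_pos_lt.1 hd'
      refine ⟨m, r, by exact_mod_cast hr0, fun d' h' => ?_⟩
      have h1 : qm m d'.1 d.1 < r := h'
      refine (qm_tri m (dsm d') (dsm d) (dsm d0)).trans_lt (lt_of_le_of_lt ?_ hr)
      rw [add_comm]
      exact add_le_add le_rfl h1.le
    | univ => exact fun d _ => ⟨0, 1, one_pos, subset_univ _⟩
    | inter t t' _ _ i1 i2 =>
      intro d hd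
      obtain ⟨m, ε, h0, h1⟩ := i1 d hd.1
      obtain ⟨m', ε', h0', h1'⟩ := i2 d hd.2
      refine ⟨max m m', min ε ε', lt_min h0 h0', fun d' h' => ⟨h1 ?_, h1' ?_⟩⟩
      · exact ((qm_mono (le_max_left _ _) _ _).trans_lt h').trans_le (min_le_left _ _)
      · exact ((qm_mono (le_max_right _ _) _ _).trans_lt h').trans_le (min_le_right _ _)
    | sUnion T _ i =>
      rintro d ⟨t, ht, hd⟩
      obtain ⟨m, ε, h0, h1⟩ := i t ht d hd
      exact ⟨m, ε, h0, h1.trans (subset_sUnion_of_mem ht)⟩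
  · intro h
    refine isOpen_iff_mem_nhds.2 fun d hd => ?_
    obtain ⟨m, ε, h0, h1⟩ := h d hd
    exact mem_of_superset (ball_mem_nhds d m h0) h1

/-- Neighbourhoods contain closed balls of real radius. -/
lemma mem_nhds_iff_qm {d : DA M a} {S : Set (DA M a)} :
    S ∈ 𝓝 d ↔ ∃ (m : ℕ) (η : ℝ), 0 < η ∧
      ∀ d' : DA M a, qm m d'.1 d.1 ≤ ENNReal.ofReal η → d' ∈ S := by
  constructor
  · intro h
    obtain ⟨t, hts, ht, hd⟩ := mem_nhds_iff.1 h
    obtain ⟨m, ε, hε, hb⟩ := isOpen_iff_ball.1 ht d hd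
    obtain ⟨η, h0, h1⟩ := exists_real_lt hε
    exact ⟨m, η, h0, fun d' h' => hts (hb (h'.trans_lt h1))⟩
  · rintro ⟨m, η, h0, h1⟩
    exact mem_of_superset (ball_mem_nhds d m (ENNReal.ofReal_pos.2 h0)) fun d' h' =>
      h1 d' (le_of_lt h')

/-- Convergence in the space of data. -/
lemma tendsto_iff_qm {ι : Type} {l : Filter ι} {u : ι → DA M a} {d : DA M a} :
    Tendsto u l (𝓝 d) ↔
      ∀ (m : ℕ) (η : ℝ), 0 < η → ∀ᶠ n in l, qm m (u n).1 d.1 ≤ ENNReal.ofReal η := by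
  constructor
  · intro h m η h0
    filter_upwards [h (ball_mem_nhds d m (ENNReal.ofReal_pos.2 h0))] with n hn using le_of_lt hn
  · intro h S hS
    obtain ⟨m, η, h0, h1⟩ := mem_nhds_iff_qm.1 hS
    exact mem_map.2 ((h m η h0).mono fun n hn => h1 _ hn)

/-- Balls about smooth data are open. -/
lemma isOpen_qm {k : Dat} (hk : DSm k) (m : ℕ) (ε : ℝ≥0∞) :
    IsOpen {d : DA M a | qm m d.1 k < ε} := by
  refine isOpen_iff_ball.2 fun d hd => ?_
  have hd' : qm m d.1 k < ε := hd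
  obtain ⟨r, hr0, hr⟩ := ENNReal.lt_iff_exists_add_pos_lt.1 hd'
  refine ⟨m, r, by exact_mod_cast hr0, fun d' h' => ?_⟩
  have h1 : qm m d'.1 d.1 < r := h'
  refine (qm_tri m (dsm d') (dsm d) hk).trans_lt (lt_of_le_of_lt ?_ hr)
  rw [add_comm]
  exact add_le_add le_rfl h1.le

/-- The ball about the Kerr data is open. -/
lemma isOpen_BA (hk : DSm (ds M a)) (m : ℕ) (η : ℝ) : IsOpen (BA M a m η) := isOpen_qm hk m _

/-- A distance on the space of data. -/
noncomputable def ed (d d' : DA M a) : ℝ≥0∞ := ⨆ m : ℕ, min (qm m d.1 d'.1) (2⁻¹ ^ m)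

theorem ed_self (d : DA M a) : ed d d = 0 := by simp [ed, qm_self]

theorem ed_comm (d d' : DA M a) : ed d d' = ed d' d := by simp only [ed, qm_comm _ d.1]

theorem ed_tri (d d' d'' : DA M a) : ed d d'' ≤ ed d d' + ed d' d'' := by
  refine iSup_le fun m => ?_
  have h1 : min (qm m d.1 d'.1) (2⁻¹ ^ m) ≤ ed d d' :=
    le_iSup (fun m : ℕ => min (qm m d.1 d'.1) (2⁻¹ ^ m)) m
  have h2 : min (qm m d'.1 d''.1) (2⁻¹ ^ m) ≤ ed d' d'' :=
    le_iSup (fun m : ℕ => min (qm m d'.1 d''.1) (2⁻¹ ^ m)) m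
  refine le_trans ?_ (add_le_add h1 h2)
  have h3 := qm_tri m (dsm d) (dsm d') (dsm d'')
  rcases le_total (qm m d.1 d'.1) (2⁻¹ ^ m) with x | x
  · rcases le_total (qm m d'.1 d''.1) (2⁻¹ ^ m) with b | b
    · rw [min_eq_left x, min_eq_left b]
      exact (min_le_left _ _).trans h3
    · rw [min_eq_right b]
      exact (min_le_right _ _).trans le_add_self
  · rw [min_eq_right x]
    exact (min_le_right _ _).trans le_self_add

theorem qm_lt_of_ed {d d' : DA M a} {m : ℕ} {ε : ℝ≥0∞} (h : ed d d' < min ε (2⁻¹ ^ m)) :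
    qm m d.1 d'.1 < ε := by
  have h1 : min (qm m d.1 d'.1) (2⁻¹ ^ m) < min ε (2⁻¹ ^ m) :=
    (le_iSup (fun m : ℕ => min (qm m d.1 d'.1) (2⁻¹ ^ m)) m).trans_lt h
  rcases min_lt_iff.1 h1 with x | x
  · exact x.trans_le (min_le_left _ _)
  · exact absurd (x.trans_le (min_le_right _ _)) (lt_irrefl _)

theorem ed_le (d d' : DA M a) (m : ℕ) : ed d d' ≤ max (qm m d.1 d'.1) (2⁻¹ ^ m) := by
  refine iSup_le fun k => ?_
  rcases le_total k m with x | x
  · exact (min_le_left _ _).trans ((qm_mono x _ _).trans (le_max_left _ _))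
  · refine (min_le_right _ _).trans (le_trans ?_ (le_max_right _ _))
    exact pow_le_pow_right_of_le_one' (ENNReal.inv_le_one.2 one_le_two) x

theorem ed_basis (d : DA M a) :
    (𝓝 d).HasBasis (fun c => 0 < c) fun c => {d' | ed d d' < c} := by
  refine ⟨fun S => ⟨fun hs => ?_, fun ⟨c, hc, hs⟩ => ?_⟩⟩
  · obtain ⟨t, hts, ht, hd⟩ := mem_nhds_iff.1 hs
    obtain ⟨m, ε, hε, hb⟩ := isOpen_iff_ball.1 ht d hd
    refine ⟨min ε (2⁻¹ ^ m), lt_min hε (pow_pos' m), fun d' hd' => hts (hb ?_)⟩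
    show qm m d'.1 d.1 < ε
    rw [qm_comm]
    exact qm_lt_of_ed hd'
  · obtain ⟨m, hm⟩ := ENNReal.exists_inv_two_pow_lt hc.ne'
    refine mem_of_superset (ball_mem_nhds d m hc) fun d' hd' => hs ?_
    have h1 : qm m d'.1 d.1 < c := hd'
    rw [qm_comm] at h1
    exact (ed_le d d' m).trans_lt (max_lt h1 hm)

/-- The space of data is first countable. -/
theorem firstCountable : FirstCountableTopology (DA M a) := by
  let _ : PseudoEMetricSpace (DA M a) :=
    PseudoEMetricSpace.ofEDistOfTopology ed ed_self ed_comm ed_tri ed_basis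
  infer_instance

/-- Subsets of the space of data are sequential spaces. -/
theorem sequential (U : Set (DA M a)) : SequentialSpace U := by
  have := firstCountable (M := M) (a := a)
  infer_instance

end Vale.Agent.P354XQ
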