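import Vale.Agent.P354XQ.Nab
import Vale.Agent.P354XQ.Top

/-!
EQV: the seminorms pn (covariant derivatives, weight ρ) and qm (coordinates) are equivalent.
-/

open scoped ENNReal
open Set

namespace Vale.Agent.P354XQ

open Vale.Agent.P354I (X Dat)
open Vale.Agent.P354T (Sm DSm)
open Vale.Agent.P354XS

variable {M a : ℝ} {ρ w : X → ℝ} {k : Dat} {e m : ℕ}

/-- A weight comparable to W. -/
def Cmp (ρ : X → ℝ) : Prop := ∃ c : ℝ, 0 < c ∧ ∀ y ≠ 0, 0 ≤ ρ y ∧ ρ y ≤ c * W y ∧ W y ≤ c * ρ y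

lemma cmp_of (h : |a| < M) (hρ : IsWt M a ρ) : Cmp ρ := by
  obtain ⟨h1, h2, C, hC, hC0, h3⟩ := hρ
  have cW : ContinuousOn W C :=
    (continuous_norm.continuousOn.add (continuous_norm.continuousOn.inv₀ fun y hy =>
      norm_ne_zero_iff.2 (hC0 hy)))
  obtain ⟨B, hB⟩ := hC.exists_bound_of_continuousOn (h1.continuousOn.mono hC0)
  obtain ⟨B', hB'⟩ := hC.exists_bound_of_continuousOn cW
  have hM := M_pos h
  have he := e_pos h
  refine ⟨|B| + |B'| + (1 + M + (M ^ 2 - a ^ 2) / 4) + (1 + 4 / (M ^ 2 - a ^ 2)), by positivity,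
    fun y hy => ?_⟩
  have w1 := one_le_W hy
  have r1 := h2 y hy
  have b0 := abs_nonneg B
  have b1 := abs_nonneg B'
  have b2 : 0 ≤ 1 + M + (M ^ 2 - a ^ 2) / 4 := by positivity
  have b3 : 0 ≤ 1 + 4 / (M ^ 2 - a ^ 2) := by positivity
  refine ⟨zero_le_one.trans r1, ?_⟩
  by_cases hy' : y ∈ C
  · have a1 : ρ y ≤ |B| := ((le_abs_self _).trans (hB y hy')).trans (le_abs_self _)
    have a2 : W y ≤ |B'| := ((le_abs_self _).trans (hB' y hy')).trans (le_abs_self _)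
    constructor
    · exact a1.trans ((le_mul_of_one_le_right b0 w1).trans
        (mul_le_mul_of_nonneg_right (by linarith) (by linarith)))
    · exact a2.trans ((le_mul_of_one_le_right b1 r1).trans
        (mul_le_mul_of_nonneg_right (by linarith) (by linarith)))
  · rw [h3 y hy hy'] at r1 ⊢
    exact ⟨(rad_le_W h hy).trans (mul_le_mul_of_nonneg_right (by linarith) (by linarith)),
      (W_le_rad h hy).trans (mul_le_mul_of_nonneg_right (by linarith) (by linarith))⟩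

lemma Dom.mul_left {α : Type} {f g t : α → ℝ} (h : Dom f g) (ht : ∀ x, 0 ≤ t x) :
    Dom (fun x => t x * f x) fun x => t x * g x := by
  obtain ⟨C, h0, h1⟩ := h
  exact ⟨C, h0, fun x => (mul_le_mul_of_nonneg_left (h1 x) (ht x)).trans (le_of_eq (by ring))⟩

/-- The terms of pn. -/
noncomputable def PN (k : Dat) (ρ : X → ℝ) (e j : ℕ) (x : PP) : ℝ :=
  ρ x.1.2 ^ (e + j) * nrm k (nab k x.1.1 j) x.1.2

lemma N_zero {n : ℕ} (T : Tn n) (y : X) : N T 0 y = ∑ I, |T y I| := by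
  simp only [N, D_zero]

lemma PN_le (h : Nice k ps) (hρ : Cmp ρ) (hw : ∀ y ≠ 0, w y * W y ^ 2 = W y ^ e) (j : ℕ) :
    Dom (PN k ρ e j) fun x => w x.1.2 * ‖x.1.2‖ ^ 2 * AN k j 0 x := by
  obtain ⟨c, hc, h1⟩ := hρ
  obtain ⟨b, hb, h2⟩ := h.nrm_cmp
  refine ⟨c ^ (e + j) * b ^ (2 + j), by positivity, fun ⟨⟨u, y⟩, hu, hy⟩ => ?_⟩
  have hy : y ≠ 0 := hy
  have hW := W_pos hy
  have hn := norm_pos_iff.2 hy
  have a1 := pow_le_pow_left₀ (h1 y hy).1 (h1 y hy).2.1 (e + j)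
  have a2 := (h2 _ (nab k u j) y hy).1
  have a3 : w y = W y ^ e * (W y ^ 2)⁻¹ := by
    rw [← hw y hy]
    field_simp
  refine (mul_le_mul a1 a2 (nrm_nonneg _ _ _) (by positivity)).trans (le_of_eq ?_)
  simp only [AN, N_zero, ps, a3, mul_pow, pow_add, mul_inv, inv_inv, inv_pow]
  field_simp

lemma le_PN (h : Nice k ps) (hρ : Cmp ρ) (hw : ∀ y ≠ 0, w y * W y ^ 2 = W y ^ e) (j : ℕ) :
    Dom (fun x => w x.1.2 * ‖x.1.2‖ ^ 2 * AN k j 0 x) (PN k ρ e j) := by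
  obtain ⟨c, hc, h1⟩ := hρ
  obtain ⟨b, hb, h2⟩ := h.nrm_cmp
  refine ⟨3 ^ (2 + j) * b ^ (2 + j) * c ^ (e + j), by positivity, fun ⟨⟨u, y⟩, hu, hy⟩ => ?_⟩
  have hy : y ≠ 0 := hy
  have hW := W_pos hy
  have hn := norm_pos_iff.2 hy
  have n0 := nrm_nonneg k (nab k u j) y
  have a1 := pow_le_pow_left₀ hW.le (h1 y hy).2.2 (e + j)
  have a2 : ∑ I, |nab k u j y I| ≤ 3 ^ (2 + j) * ((b * ps y) ^ (2 + j) * nrm k (nab k u j) y) := by
    refine (Finset.sum_le_sum fun I _ => (h2 _ (nab k u j) y hy).2 I).trans (le_of_eq ?_)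
    simp only [Finset.sum_const, Finset.card_univ, Fintype.card_fun, Fintype.card_fin,
      nsmul_eq_mul]
    push_cast
    ring
  have a3 : w y = W y ^ e * (W y ^ 2)⁻¹ := by
    rw [← hw y hy]
    field_simp
  calc w y * ‖y‖ ^ 2 * (‖y‖ ^ j * N (nab k u j) 0 y)
      ≤ w y * ‖y‖ ^ 2 * (‖y‖ ^ j *
          (3 ^ (2 + j) * ((b * ps y) ^ (2 + j) * nrm k (nab k u j) y))) := by
        rw [N_zero, a3]
        gcongr
    _ = 3 ^ (2 + j) * b ^ (2 + j) * (W y ^ (e + j) * nrm k (nab k u j) y) := by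
        simp only [ps, a3, mul_pow, pow_add, inv_pow]
        field_simp
    _ ≤ 3 ^ (2 + j) * b ^ (2 + j) * ((c * ρ y) ^ (e + j) * nrm k (nab k u j) y) := by gcongr
    _ = _ := by
        simp only [PN, mul_pow]
        ring

/-- One half of pn. -/
noncomputable def pt (k : Dat) (ρ : X → ℝ) (e m : ℕ) (u : X → Matrix (Fin 3) (Fin 3) ℝ) : ℝ≥0∞ :=
  ∑ j ∈ Finset.range (m + 1),
    ⨆ y : X, ⨆ _ : y ≠ 0, ENNReal.ofReal (ρ y ^ (e + j) * nrm k (nab k u j) y)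

lemma pn_eq (k : Dat) (ρ : X → ℝ) (m : ℕ) (d d' : Dat) :
    pn k ρ m d d' = pt k ρ 1 m (d.h - d'.h) + pt k ρ 2 m (d.K - d'.K) := Finset.sum_add_distrib

lemma nn_of (hw : ∀ y ≠ 0, w y * W y ^ 2 = W y ^ e) : Nn w := fun y hy => by
  have := W_pos hy
  have h1 : 0 < w y * W y ^ 2 := by
    rw [hw y hy]
    positivity
  exact ((mul_pos_iff_of_pos_right (by positivity)).1 h1).le

lemma dom_unif {α : Type} {F : ℕ → α → ℝ} {g : α → ℝ} (hg : ∀ x, 0 ≤ g x)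
    (h : ∀ j ≤ m, Dom (F j) g) : ∃ C : ℝ, 0 ≤ C ∧ ∀ j ≤ m, ∀ x, F j x ≤ C * g x := by
  choose! C h0 h1 using h
  have hs : ∀ j ∈ Finset.range (m + 1), 0 ≤ C j := fun j hj =>
    h0 j (by have := Finset.mem_range.1 hj; omega)
  refine ⟨∑ j ∈ Finset.range (m + 1), C j, Finset.sum_nonneg hs, fun j hj x =>
    (h1 j hj x).trans (mul_le_mul_of_nonneg_right ?_ (hg x))⟩
  exact Finset.single_le_sum hs (Finset.mem_range.2 (by omega))

lemma sum_le_mul {f : ℕ → ℝ} {η : ℝ} (h : ∀ j ≤ m, f j ≤ η) :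
    ∑ j ∈ Finset.range (m + 1), f j ≤ (m + 1) * η := by
  refine (Finset.sum_le_sum fun j hj => h j (by have := Finset.mem_range.1 hj; omega)).trans
    (le_of_eq ?_)
  simp

lemma pt_le (h : Nice k ps) (hρ : Cmp ρ) (hw : ∀ y ≠ 0, w y * W y ^ 2 = W y ^ e) (m : ℕ) :
    ∃ C : ℝ, 0 ≤ C ∧ ∀ u, MS u → ∀ η, 0 ≤ η →
      (∀ i j, wq w m (fun y => u y i j) ≤ ENNReal.ofReal η) →
      pt k ρ e m u ≤ ENNReal.ofReal (C * η) := by
  have t0 : ∀ x : PP, 0 ≤ w x.1.2 * ‖x.1.2‖ ^ 2 := fun x =>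
    mul_nonneg (nn_of hw _ x.2.2) (sq_nonneg _)
  obtain ⟨C, h0, h1⟩ := dom_unif (m := m) (fun x => mul_nonneg (t0 x)
    (Finset.sum_nonneg fun _ _ => AN_nonneg k _ _ x))
    fun j hj => (PN_le h hρ hw j).trans ((nab_le h hj).mul_left t0)
  refine ⟨(m + 1) * (C * ((m + 1) * 9)), by positivity, fun u hu η hη hq => ?_⟩
  rw [mul_assoc]
  refine sum_range_le fun j hj => iSup₂_le fun y hy => ENNReal.ofReal_le_ofReal ?_
  refine (h1 j hj ⟨(u, y), hu, hy⟩).trans ?_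
  rw [mul_assoc C, mul_assoc _ 9, Finset.mul_sum]
  refine mul_le_mul_of_nonneg_left (sum_le_mul fun i hi => ?_) h0
  simp only [AN, N, pow_zero, one_mul, Finset.mul_sum]
  refine (Finset.sum_le_sum (g := fun _ => η) fun I _ => ?_).trans (le_of_eq (by simp))
  refine le_trans (le_of_eq ?_) (le_of_wq hi hη (hq (I 0) (I 1)) hy)
  simp only [D, nab, pow_add]
  ring

lemma le_pt (h : Nice k ps) (hρ : Cmp ρ) (hw : ∀ y ≠ 0, w y * W y ^ 2 = W y ^ e) (m : ℕ) :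
    ∃ C : ℝ, 0 ≤ C ∧ ∀ u, MS u → ∀ η, 0 ≤ η → pt k ρ e m u ≤ ENNReal.ofReal η →
      ∀ i j, wq w m (fun y => u y i j) ≤ ENNReal.ofReal (C * η) := by
  have t0 : ∀ x : PP, 0 ≤ w x.1.2 * ‖x.1.2‖ ^ 2 := fun x =>
    mul_nonneg (nn_of hw _ x.2.2) (sq_nonneg _)
  have p0 : ∀ j x, 0 ≤ PN k ρ e j x := fun j x =>
    mul_nonneg (pow_nonneg (hρ.choose_spec.2 _ x.2.2).1 _) (nrm_nonneg _ _ _)
  have d1 : Dom (fun x : PP => w x.1.2 * ‖x.1.2‖ ^ 2 * ∑ i ∈ Finset.range (m + 1), AN k i 0 x)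
      fun x => ∑ i ∈ Finset.range (m + 1), PN k ρ e i x := by
    simp only [Finset.mul_sum]
    exact Dom.sum fun i hi => (le_PN h hρ hw i).trans
      (dom_term p0 (by have := Finset.mem_range.1 hi; omega))
  obtain ⟨C, h0, h1⟩ := dom_unif (m := m) (fun x => Finset.sum_nonneg fun _ _ => p0 _ x)
    fun l hl => ((le_nab h hl).mul_left t0).trans d1
  refine ⟨(m + 1) * (C * (m + 1)), by positivity, fun u hu η hη hp i j => ?_⟩
  rw [mul_assoc]
  refine wq_le_of fun l hl y hy => ?_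
  have a1 : w y * ‖y‖ ^ (2 + l) * ‖iteratedFDeriv ℝ l (fun y => u y i j) y‖ ≤
      w y * ‖y‖ ^ 2 * AN k 0 l ⟨(u, y), hu, hy⟩ := by
    have := mul_le_mul_of_nonneg_left (D_le_N (nab k u 0) l y ![i, j]) (t0 ⟨(u, y), hu, hy⟩)
    refine le_trans (le_of_eq ?_) (this.trans (le_of_eq ?_))
    · simp only [D, nab, pow_add, Matrix.cons_val_zero, Matrix.cons_val_one]
      ring
    · simp only [AN, pow_zero, one_mul]
  refine a1.trans ((h1 l hl ⟨(u, y), hu, hy⟩).trans ?_)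
  rw [mul_assoc C]
  refine mul_le_mul_of_nonneg_left (sum_le_mul fun i hi => ?_) h0
  refine (ENNReal.ofReal_le_ofReal_iff hη).1 (le_trans ?_ hp)
  refine le_trans ?_ (Finset.single_le_sum (f := fun j => ⨆ y : X, ⨆ _ : y ≠ 0,
    ENNReal.ofReal (ρ y ^ (e + j) * nrm k (nab k u j) y)) (fun _ _ => zero_le)
    (Finset.mem_range.2 (Nat.lt_succ_of_le hi)))
  exact le_iSup₂_of_le (f := fun (y : X) (_ : y ≠ 0) =>
    ENNReal.ofReal (ρ y ^ (e + i) * nrm k (nab k u i) y)) y hy le_rfl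

lemma le_mul_of {s t : ℝ≥0∞} {C C' : ℝ} (h0 : 0 < C') (hC : C ≤ C')
    (h : ∀ η, 0 ≤ η → t ≤ ENNReal.ofReal η → s ≤ ENNReal.ofReal (C * η)) :
    s ≤ ENNReal.ofReal C' * t := by
  rcases eq_or_ne t ⊤ with rfl | ht
  · rw [ENNReal.mul_top (ENNReal.ofReal_pos.2 h0).ne']
    exact le_top
  · refine (h t.toReal ENNReal.toReal_nonneg (ENNReal.ofReal_toReal ht).ge).trans ?_
    refine (ENNReal.ofReal_le_ofReal (mul_le_mul_of_nonneg_right hC ENNReal.toReal_nonneg)).trans ?_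
    rw [ENNReal.ofReal_mul h0.le, ENNReal.ofReal_toReal ht]

lemma ms_h {d d' : Dat} (h : DSm d) (h' : DSm d') : MS (d.h - d'.h) := fun i j =>
  (h i j).1.sub (h' i j).1

lemma ms_K {d d' : Dat} (h : DSm d) (h' : DSm d') : MS (d.K - d'.K) := fun i j =>
  (h i j).2.sub (h' i j).2

/-- EQV. -/
theorem eqv : EQV := by
  intro M a ρ m h hρ
  have n := nice_ds h
  have c := cmp_of h hρ
  have w1 : ∀ y ≠ 0, wi y * W y ^ 2 = W y ^ 1 := fun y hy => by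
    have := (W_pos hy).ne'
    show (W y)⁻¹ * W y ^ 2 = W y ^ 1
    field_simp
  have w2 : ∀ y ≠ 0, (1 : X → ℝ) y * W y ^ 2 = W y ^ 2 := fun y _ => one_mul _
  obtain ⟨C1, p1, a1⟩ := pt_le n c w1 m
  obtain ⟨C2, p2, a2⟩ := pt_le n c w2 m
  obtain ⟨C3, p3, a3⟩ := le_pt n c w1 m
  obtain ⟨C4, p4, a4⟩ := le_pt n c w2 m
  refine ⟨1 + (C1 + C2) + 18 * (C3 + C4), by positivity, fun d d' hd hd' => ⟨?_, ?_⟩⟩
  · refine le_mul_of (C := C1 + C2) (by positivity) (by linarith) fun η hη hq => ?_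
    rw [pn_eq, add_mul, ENNReal.ofReal_add (by positivity) (by positivity)]
    exact add_le_add (a1 _ (ms_h hd hd') η hη fun i j => (qm_parts hq i j).1)
      (a2 _ (ms_K hd hd') η hη fun i j => (qm_parts hq i j).2)
  · refine le_mul_of (C := 18 * (C3 + C4)) (by positivity) (by linarith) fun η hη hp => ?_
    rw [pn_eq] at hp
    rw [mul_assoc]
    refine qm_le_of (by positivity) fun i j => ⟨?_, ?_⟩
    · exact (a3 _ (ms_h hd hd') η hη (le_self_add.trans hp) i j).trans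
        (ENNReal.ofReal_le_ofReal (mul_le_mul_of_nonneg_right (by linarith) hη))
    · exact (a4 _ (ms_K hd hd') η hη (le_add_self.trans hp) i j).trans
        (ENNReal.ofReal_le_ofReal (mul_le_mul_of_nonneg_right (by linarith) hη))

lemma pt_add_le {ψ : X → ℝ} (h : Nice k ψ) (hρ : Nn ρ) {u u' u'' : X → Matrix (Fin 3) (Fin 3) ℝ}
    (hu : MS u) (hu' : MS u') (s : ∀ y ≠ 0, u'' y = u y + u' y) :
    pt k ρ e m u'' ≤ pt k ρ e m u + pt k ρ e m u' := by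
  unfold pt
  rw [← Finset.sum_add_distrib]
  refine Finset.sum_le_sum fun j _ => iSup₂_le fun y hy => ?_
  have l : ∀ v, ENNReal.ofReal (ρ y ^ (e + j) * nrm k (nab k v j) y) ≤
      ⨆ y : X, ⨆ _ : y ≠ 0, ENNReal.ofReal (ρ y ^ (e + j) * nrm k (nab k v j) y) := fun v =>
    le_iSup₂_of_le (f := fun (y : X) (_ : y ≠ 0) =>
      ENNReal.ofReal (ρ y ^ (e + j) * nrm k (nab k v j) y)) y hy le_rfl
  refine le_trans ?_ (add_le_add (l u) (l u'))
  refine le_trans (ENNReal.ofReal_le_ofReal ?_) ENNReal.ofReal_add_le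
  rw [← mul_add]
  exact mul_le_mul_of_nonneg_left (nrm_add_le (h.pd y hy) (nab_add h hu hu' s j y hy))
    (pow_nonneg (hρ y hy) _)

/-- The triangle inequality for pn. -/
theorem pn_tri {ψ : X → ℝ} (h : Nice k ψ) (hρ : Nn ρ) (m : ℕ) {d d' d'' : Dat} (s : DSm d)
    (s' : DSm d') (s'' : DSm d'') : pn k ρ m d d'' ≤ pn k ρ m d d' + pn k ρ m d' d'' := by
  rw [pn_eq, pn_eq, pn_eq, add_add_add_comm]
  exact add_le_add (pt_add_le h hρ (ms_h s s') (ms_h s' s'') fun y _ => by simp)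
    (pt_add_le h hρ (ms_K s s') (ms_K s' s'') fun y _ => by simp)

end Vale.Agent.P354XQ
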