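import Vale.Agent.P354XQ.Sym
import Vale.Agent.P354XS.Defs
import Vale.Agent.P354T.Baire

/-!
The metric of the Kerr data ds, its inverse and its Christoffel symbols are symbols.
-/

open scoped ContDiff
open Set Filter Topology

namespace Vale.Agent.P354XQ

open Vale.Agent.P354I (X Dat ee pd dT dP rnd Sg)
open Vale.Agent.P354T (Sm qf posDef_of)
open Vale.Agent.P354XS

/-- A metric of size ψ ^ 2 with symbol estimates. -/
structure Nice (k : Dat) (ψ : X → ℝ) : Prop where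
  pos : ∀ y ≠ 0, 0 < ψ y
  pd : ∀ y ≠ 0, (k.h y).PosDef
  h : ∀ n i j, S n (fun y => ψ y ^ 2) fun y => k.h y i j
  inv : ∀ n i j, S n (fun y => (ψ y ^ 2)⁻¹) fun y => (k.h y)⁻¹ i j

/-- The Christoffel symbols are symbols of size 1 / |y|. -/
lemma Nice.chr {k : Dat} {ψ : X → ℝ} (h : Nice k ψ) (n : ℕ) (l i j : Fin 3) :
    S n (fun y => ‖y‖⁻¹) (k.chr l i j) := by
  have e : ∀ i j l, S n (fun y => ψ y ^ 2 * ‖y‖⁻¹) (P354I.pd i fun z => k.h z j l) :=
    fun i j l => (h.h (n + 1) j l).pd i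
  refine (S.sum (s := Finset.univ) fun m _ =>
    ((((h.inv n l m).mul (((e i j m).add (e j i m)).sub (e m i j))).smul (1 / 2)).wt
      fun y hy => ?_)).congr fun y _ => ?_
  · have := (h.pos y hy).ne'
    field_simp
  · unfold Dat.chr
    exact Finset.sum_congr rfl fun m _ => by ring

/-- The weight |y| + 1 / |y|. -/
noncomputable def W (y : X) : ℝ := ‖y‖ + ‖y‖⁻¹

variable {M a : ℝ} {y : X} {n : ℕ}

lemma one_le_W (hy : y ≠ 0) : 1 ≤ W y := by
  have hn := norm_pos_iff.2 hy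
  unfold W
  rcases le_total 1 ‖y‖ with h | h
  · exact le_add_of_le_of_nonneg h (by positivity)
  · exact le_add_of_nonneg_of_le hn.le ((one_le_inv₀ hn).2 h)

lemma W_pos (hy : y ≠ 0) : 0 < W y := one_pos.trans_le (one_le_W hy)

lemma M_pos (h : |a| < M) : 0 < M := (abs_nonneg a).trans_lt h

lemma e_pos (h : |a| < M) : 0 < M ^ 2 - a ^ 2 := by
  have := sq_lt_sq' (abs_lt.1 h).1 (abs_lt.1 h).2
  linarith

lemma rad_eq (M a : ℝ) (y : X) : rad M a y = ‖y‖ + M + (M ^ 2 - a ^ 2) / 4 * ‖y‖⁻¹ := by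
  unfold rad
  ring

lemma rad_pos (h : |a| < M) (hy : y ≠ 0) : 0 < rad M a y := by
  have := M_pos h
  have := e_pos h
  have := norm_pos_iff.2 hy
  rw [rad_eq]
  positivity

lemma W_le_rad (h : |a| < M) (hy : y ≠ 0) : W y ≤ (1 + 4 / (M ^ 2 - a ^ 2)) * rad M a y := by
  have := M_pos h
  have he := e_pos h
  have hn := norm_pos_iff.2 hy
  have h1 : (1 + 4 / (M ^ 2 - a ^ 2)) * rad M a y = W y + (M + (M ^ 2 - a ^ 2) / 4 * ‖y‖⁻¹ +
      4 / (M ^ 2 - a ^ 2) * (‖y‖ + M)) := by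
    rw [rad_eq, W]
    field_simp
    ring
  rw [h1]
  exact le_add_of_nonneg_right (by positivity)

lemma rad_le_W (h : |a| < M) (hy : y ≠ 0) :
    rad M a y ≤ (1 + M + (M ^ 2 - a ^ 2) / 4) * W y := by
  have := M_pos h
  have he := e_pos h
  have hn := norm_pos_iff.2 hy
  have h1 := one_le_W hy
  have h2 : ‖y‖ ≤ W y := le_add_of_nonneg_right (by positivity)
  have h3 : ‖y‖⁻¹ ≤ W y := le_add_of_nonneg_left hn.le
  rw [rad_eq, add_mul, add_mul, one_mul]
  exact add_le_add (add_le_add h2 (le_mul_of_one_le_right this.le h1))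
    (mul_le_mul_of_nonneg_left h3 (by positivity))

lemma S_rad (M a : ℝ) (n : ℕ) : S n W (rad M a) := by
  have h1 : S n W fun y => ‖y‖ := (S.norm n).mono (c := 1) fun y hy => by
    rw [abs_norm, abs_of_pos (W_pos hy), one_mul]
    exact le_add_of_nonneg_right (by positivity)
  have h2 : S n W fun _ => M := (S.const n M).mono (c := 1) fun y hy => by
    rw [abs_one, abs_of_pos (W_pos hy), one_mul]
    exact one_le_W hy
  have h3 : S n W fun y => ‖y‖⁻¹ := (S.norm_inv n).mono (c := 1) fun y hy => by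
    rw [abs_inv, abs_norm, abs_of_pos (W_pos hy), one_mul]
    exact le_add_of_nonneg_left (norm_nonneg _)
  exact ((h1.add h2).add (h3.smul _)).congr fun y _ => rad_eq M a y

/-- The function r^2 + a^2 cos^2 θ on the slice. -/
noncomputable def sg (M a : ℝ) (y : X) : ℝ := Sg a (rad M a y) y

lemma sq_le_sg (M a : ℝ) (y : X) : rad M a y ^ 2 ≤ sg M a y :=
  le_add_of_nonneg_right (by positivity)

lemma sg_pos (h : |a| < M) (hy : y ≠ 0) : 0 < sg M a y :=
  (pow_pos (rad_pos h hy) 2).trans_le (sq_le_sg M a y)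

lemma W_le_sg (h : |a| < M) (hy : y ≠ 0) :
    W y ^ 2 ≤ (1 + 4 / (M ^ 2 - a ^ 2)) ^ 2 * sg M a y := by
  refine (pow_le_pow_left₀ (W_pos hy).le (W_le_rad h hy) 2).trans ?_
  rw [mul_pow]
  exact mul_le_mul_of_nonneg_left (sq_le_sg M a y) (by positivity)

lemma S_unit (n : ℕ) (i : Fin 3) : S n (fun _ => 1) fun y => y i * ‖y‖⁻¹ :=
  ((S.coord n i).mul (S.norm_inv n)).wt fun _ hy => mul_inv_cancel₀ (norm_ne_zero_iff.2 hy)

lemma S_sg (M a : ℝ) (n : ℕ) : S n (fun y => W y ^ 2) (sg M a) := by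
  have h1 : S n (fun y => W y ^ 2) fun y => rad M a y * rad M a y :=
    ((S_rad M a n).mul (S_rad M a n)).wt fun y _ => by ring
  have h2 : S n (fun y => W y ^ 2) fun y => y 2 * ‖y‖⁻¹ * (y 2 * ‖y‖⁻¹) :=
    ((S_unit n 2).mul (S_unit n 2)).mono (c := 1) fun y hy => by
      rw [abs_of_nonneg (sq_nonneg (W y))]
      simpa using one_le_pow₀ (n := 2) (one_le_W hy)
  refine (h1.add (h2.smul (a ^ 2))).congr fun y _ => ?_
  unfold sg Sg
  ring

lemma S_sg_inv (h : |a| < M) (n : ℕ) : S n (fun y => (W y ^ 2)⁻¹) fun y => (sg M a y)⁻¹ :=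
  (S_sg M a n).inv (fun y hy => (pow_pos (W_pos hy) 2).ne') fun y hy => by
    rw [abs_of_nonneg (sq_nonneg _), abs_of_pos (sg_pos h hy)]
    exact W_le_sg h hy

/-- The size of the metric is ps ^ 2. -/
noncomputable def ps (y : X) : ℝ := W y * ‖y‖⁻¹

lemma ps_pos (hy : y ≠ 0) : 0 < ps y := mul_pos (W_pos hy) (inv_pos.2 (norm_pos_iff.2 hy))

/-- The metric is al δ + be p p. -/
noncomputable def al (M a : ℝ) (y : X) : ℝ := sg M a y * ‖y‖⁻¹ * ‖y‖⁻¹
noncomputable def be (M a : ℝ) (y : X) : ℝ := a ^ 2 * (1 + 2 * M * (rad M a y * (sg M a y)⁻¹))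
noncomputable def pp (i : Fin 3) (y : X) : ℝ := dP y (ee i)
noncomputable def ga (M a : ℝ) (y : X) : ℝ := al M a y + ∑ i, be M a y * (pp i y * pp i y)

lemma inner_ee (i j : Fin 3) : inner ℝ (ee i) (ee j) = (1 : Matrix (Fin 3) (Fin 3) ℝ) i j := by
  simp [ee, EuclideanSpace.inner_single_left, Matrix.one_apply, PiLp.single_apply]

lemma h_eq (M a : ℝ) (y : X) (i j : Fin 3) : (ds M a).h y i j =
    al M a y * (1 : Matrix (Fin 3) (Fin 3) ℝ) i j + be M a y * (pp i y * pp j y) := by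
  simp only [ds, Matrix.of_apply, hs, rnd, inner_ee, al, be, pp, sg]
  ring

lemma al_pos (h : |a| < M) (hy : y ≠ 0) : 0 < al M a y := by
  have := sg_pos h hy
  have := norm_pos_iff.2 hy
  unfold al
  positivity

lemma be_nonneg (h : |a| < M) (hy : y ≠ 0) : 0 ≤ be M a y := by
  have := sg_pos h hy
  have := rad_pos h hy
  have := M_pos h
  unfold be
  positivity

lemma al_le_ga (h : |a| < M) (hy : y ≠ 0) : al M a y ≤ ga M a y :=
  le_add_of_nonneg_right (Finset.sum_nonneg fun _ _ =>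
    mul_nonneg (be_nonneg h hy) (mul_self_nonneg _))

lemma ps_le_al (h : |a| < M) (hy : y ≠ 0) :
    ps y ^ 2 ≤ (1 + 4 / (M ^ 2 - a ^ 2)) ^ 2 * al M a y := by
  have := mul_le_mul_of_nonneg_right (W_le_sg h hy) (sq_nonneg ‖y‖⁻¹)
  unfold ps al
  nlinarith

lemma S_al (M a : ℝ) (n : ℕ) : S n (fun y => ps y ^ 2) (al M a) :=
  (((S_sg M a n).mul (S.norm_inv n)).mul (S.norm_inv n)).wt fun y _ => by unfold ps; ring

lemma S_be (h : |a| < M) (n : ℕ) : S n (fun _ => 1) (be M a) := by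
  have h1 : S n (fun _ => 1) fun y => rad M a y * (sg M a y)⁻¹ :=
    ((S_rad M a n).mul (S_sg_inv h n)).mono (c := 1) fun y hy => by
      have h0 := W_pos hy
      have : W y * (W y ^ 2)⁻¹ = (W y)⁻¹ := by field_simp
      rw [this, abs_of_pos (inv_pos.2 h0)]
      simpa using inv_le_one_of_one_le₀ (one_le_W hy)
  exact ((S.const n 1).add (h1.smul (2 * M))).smul (a ^ 2)

lemma S_pp (n : ℕ) (i : Fin 3) : S n (fun y => ‖y‖⁻¹) (pp i) := by
  refine (((((S_unit n 0).smul (ee i 1)).sub ((S_unit n 1).smul (ee i 0))).mul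
    (S.norm_inv n)).wt fun y _ => one_mul _).congr fun y _ => ?_
  unfold pp dP
  ring

lemma S_bpp (h : |a| < M) (n : ℕ) (i j : Fin 3) :
    S n (fun y => ps y ^ 2) fun y => be M a y * (pp i y * pp j y) :=
  ((S_be h n).mul ((S_pp n i).mul (S_pp n j))).mono (c := 1) fun y hy => by
    have h1 := one_le_pow₀ (n := 2) (one_le_W hy)
    rw [abs_of_nonneg (sq_nonneg (ps y)), abs_of_nonneg (by positivity)]
    unfold ps
    nlinarith [sq_nonneg ‖y‖⁻¹]

lemma S_ga (h : |a| < M) (n : ℕ) : S n (fun y => ps y ^ 2) (ga M a) :=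
  (S_al M a n).add (S.sum fun i _ => S_bpp h n i i)

lemma rank_one {A B G : ℝ} {p : Fin 3 → ℝ} (hA : A ≠ 0) (hG : G ≠ 0)
    (e : G = A + ∑ i, B * (p i * p i)) (i j : Fin 3) :
    ∑ k, (A * (1 : Matrix (Fin 3) (Fin 3) ℝ) i k + B * (p i * p k)) *
      (A⁻¹ * (1 : Matrix (Fin 3) (Fin 3) ℝ) k j - A⁻¹ * (B * (p k * p j)) * G⁻¹) =
      (1 : Matrix (Fin 3) (Fin 3) ℝ) i j := by
  have e1 : ∀ f : Fin 3 → ℝ, ∑ k, (1 : Matrix (Fin 3) (Fin 3) ℝ) i k * f k = f i := fun f => by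
    simp [Matrix.one_apply]
  have e2 : ∀ f : Fin 3 → ℝ, ∑ k, f k * (1 : Matrix (Fin 3) (Fin 3) ℝ) k j = f j := fun f => by
    simp [Matrix.one_apply]
  have e3 : ∑ i, B * (p i * p i) = G - A := by rw [e]; ring
  calc _ = ∑ k, (1 : Matrix (Fin 3) (Fin 3) ℝ) i k * ((1 : Matrix (Fin 3) (Fin 3) ℝ) k j -
        B * (p k * p j) * G⁻¹) + ∑ k, A⁻¹ * (B * (p i * p k)) *
          (1 : Matrix (Fin 3) (Fin 3) ℝ) k j -
        A⁻¹ * (B * (p i * p j)) * G⁻¹ * ∑ k, B * (p k * p k) := by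
        rw [Finset.mul_sum, ← Finset.sum_add_distrib, ← Finset.sum_sub_distrib]
        refine Finset.sum_congr rfl fun k _ => ?_
        field_simp
        ring
    _ = _ := by
        rw [e1, e2, e3]
        field_simp
        ring

lemma inv_eq (h : |a| < M) (hy : y ≠ 0) (i j : Fin 3) : ((ds M a).h y)⁻¹ i j =
    (al M a y)⁻¹ * (1 : Matrix (Fin 3) (Fin 3) ℝ) i j -
      (al M a y)⁻¹ * (be M a y * (pp i y * pp j y)) * (ga M a y)⁻¹ := by
  have h1 := (al_pos h hy).ne'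
  have h2 := ((al_pos h hy).trans_le (al_le_ga h hy)).ne'
  have : (ds M a).h y * (Matrix.of fun i j => (al M a y)⁻¹ * (1 : Matrix (Fin 3) (Fin 3) ℝ) i j -
      (al M a y)⁻¹ * (be M a y * (pp i y * pp j y)) * (ga M a y)⁻¹) = 1 := by
    ext i j
    simp only [Matrix.mul_apply, h_eq, Matrix.of_apply]
    exact rank_one h1 h2 rfl i j
  rw [Matrix.inv_eq_right_inv this, Matrix.of_apply]

lemma posDef_ds (h : |a| < M) (hy : y ≠ 0) : ((ds M a).h y).PosDef := by
  refine posDef_of ?_ fun v hv => ?_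
  · ext i j
    rw [Matrix.transpose_apply, h_eq, h_eq, mul_comm (pp i y)]
    simp [Matrix.one_apply, eq_comm]
  · obtain ⟨i, hi⟩ := Function.ne_iff.1 hv
    have h1 : 0 < ∑ i, v i ^ 2 :=
      Finset.sum_pos' (fun _ _ => sq_nonneg _) ⟨i, Finset.mem_univ _, sq_pos_of_ne_zero hi⟩
    have h2 : qf ((ds M a).h y) v =
        al M a y * ∑ i, v i ^ 2 + be M a y * (∑ i, v i * pp i y) ^ 2 := by
      simp [qf, h_eq, Fin.sum_univ_three]
      ring
    rw [h2]
    exact add_pos_of_pos_of_nonneg (mul_pos (al_pos h hy) h1)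
      (mul_nonneg (be_nonneg h hy) (sq_nonneg _))

/-- The Kerr metric on the slice has symbol estimates. -/
theorem nice_ds (h : |a| < M) : Nice (ds M a) ps where
  pos _ hy := ps_pos hy
  pd _ hy := posDef_ds h hy
  h n i j := by
    refine ((((S_al M a n).mul (S.const n ((1 : Matrix (Fin 3) (Fin 3) ℝ) i j))).wt
      fun y _ => mul_one _).add (S_bpp h n i j)).congr fun y _ => h_eq M a y i j
  inv n i j := by
    have p0 : ∀ y ≠ 0, ps y ^ 2 ≠ 0 := fun y hy => (pow_pos (ps_pos hy) 2).ne'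
    have i1 := (S_al M a n).inv p0 fun y hy => by
      rw [abs_of_nonneg (sq_nonneg _), abs_of_pos (al_pos h hy)]
      exact ps_le_al h hy
    have i2 := (S_ga h n).inv (c := (1 + 4 / (M ^ 2 - a ^ 2)) ^ 2) p0 fun y hy => by
      rw [abs_of_nonneg (sq_nonneg _), abs_of_pos ((al_pos h hy).trans_le (al_le_ga h hy))]
      exact (ps_le_al h hy).trans (mul_le_mul_of_nonneg_left (al_le_ga h hy) (sq_nonneg _))
    refine (((i1.mul (S.const n ((1 : Matrix (Fin 3) (Fin 3) ℝ) i j))).wt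
      fun y _ => mul_one _).sub (((i1.mul (S_bpp h n i j)).mul i2).wt fun y hy => ?_)).congr
      fun y hy => inv_eq h hy i j
    have := p0 y hy
    field_simp

end Vale.Agent.P354XQ
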