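import Vale.Agent.P354XQ.Eqv

/-!
Q1 follows from its form in the coordinates y.
-/

open scoped ContDiff ENNReal
open Set Topology

namespace Vale.Agent.P354XQ

open Vale.Agent.P354I (X Dat Good)
open Vale.Agent.P354T (Sm DSm)
open Vale.Agent.P354XS

variable {M a : ℝ} {ρ : X → ℝ}

/-- There is a weight. -/
theorem exists_wt (h : |a| < M) : ∃ ρ, IsWt M a ρ := by
  have hM := M_pos h
  have he := e_pos h
  have hr : Sm (rad M a) := (S_rad M a 0).1
  refine ⟨fun y => rad M a y + Real.smoothTransition (2 - rad M a y), ?_, fun y hy => ?_,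
    Metric.closedBall 0 2 ∩ {y | (M ^ 2 - a ^ 2) / 8 ≤ ‖y‖}, ?_, fun y hy h0 => ?_,
    fun y hy hC => ?_⟩
  · exact ContDiffOn.add hr (Real.smoothTransition.contDiff.comp_contDiffOn
      (contDiffOn_const.sub hr))
  · show 1 ≤ rad M a y + Real.smoothTransition (2 - rad M a y)
    rcases le_total (rad M a y) 1 with h1 | h1
    · rw [Real.smoothTransition.one_of_one_le (by linarith)]
      linarith [rad_pos h hy]
    · linarith [Real.smoothTransition.nonneg (2 - rad M a y)]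
  · exact (isCompact_closedBall 0 2).inter_right (isClosed_le continuous_const continuous_norm)
  · have h1 : (M ^ 2 - a ^ 2) / 8 ≤ ‖y‖ := hy.2
    rw [mem_singleton_iff.1 h0, norm_zero] at h1
    linarith
  · have hn := norm_pos_iff.2 hy
    have h2 : 2 ≤ rad M a y := by
      have h3 : 0 ≤ (M ^ 2 - a ^ 2) / (4 * ‖y‖) := by positivity
      unfold rad
      by_cases h4 : ‖y‖ ≤ 2
      · have h5 : ‖y‖ < (M ^ 2 - a ^ 2) / 8 :=
          not_le.1 fun h5 => hC ⟨mem_closedBall_zero_iff.2 h4, h5⟩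
        have h6 : 2 ≤ (M ^ 2 - a ^ 2) / (4 * ‖y‖) := by
          rw [le_div_iff₀ (by positivity)]
          linarith
        linarith
      · linarith [not_le.1 h4]
    show rad M a y + Real.smoothTransition (2 - rad M a y) = rad M a y
    rw [Real.smoothTransition.zero_of_nonpos (by linarith), add_zero]

lemma lt_of_le_mul {s t r : ℝ≥0∞} {C : ℝ} (h : s ≤ ENNReal.ofReal C * t)
    (ht : t < r / ENNReal.ofReal C) : s < r := by
  refine h.trans_lt ?_
  rw [mul_comm]
  exact ENNReal.mul_lt_of_lt_div ht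

/-- The two spaces of data are homeomorphic by the identity. -/
theorem exists_homeo (hE : EQV) (hK : KD) (h : |a| < M) (hρ : IsWt M a ρ) :
    ∃ e : DD M a ρ ≃ₜ DA M a, ∀ d, (e d).1 = d.1 := by
  have hk : DSm (ds M a) := (hK M a h).1.1
  choose C _ hE' using fun m => hE M a ρ m h hρ
  have ρ0 : Nn ρ := fun y hy => zero_le_one.trans (hρ.2.1 y hy)
  let e0 : DD M a ρ ≃ DA M a :=
    { toFun := fun d => ⟨d.1, ⟨d.2.smooth, d.2.pos⟩,
        fun y hy => ⟨d.2.hamilton y hy, d.2.momentum y hy⟩, fun m =>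
          (hE' m _ _ d.2.smooth hk).2.trans_lt
            (ENNReal.mul_lt_top ENNReal.ofReal_lt_top (d.2.finite m))⟩
      invFun := fun d => ⟨d.1, d.2.1.1, d.2.1.2, fun m =>
          (hE' m _ _ d.2.1.1 hk).1.trans_lt
            (ENNReal.mul_lt_top ENNReal.ofReal_lt_top (d.2.2.2 m)),
        fun y hy => (d.2.2.1 y hy).1, fun y hy => (d.2.2.1 y hy).2⟩
      left_inv := fun _ => rfl
      right_inv := fun _ => rfl }
  have pos : ∀ m {r : NNReal}, 0 < r → 0 < (r : ℝ≥0∞) / ENNReal.ofReal (C m) := fun m r hr =>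
    ENNReal.div_pos (by exact_mod_cast hr.ne') ENNReal.ofReal_ne_top
  refine ⟨⟨e0, ?_, ?_⟩, fun _ => rfl⟩
  · refine continuous_generateFrom_iff.2 ?_
    rintro _ ⟨d0, m, ε, rfl⟩
    refine isOpen_iff_forall_mem_open.2 fun d hd => ?_
    have hd' : qm m d.1 d0.1 < ε := hd
    obtain ⟨r, hr0, hr⟩ := ENNReal.lt_iff_exists_add_pos_lt.1 hd'
    refine ⟨{d' | pn (ds M a) ρ m d'.1 d.1 < r / ENNReal.ofReal (C m)}, fun d' h' => ?_,
      TopologicalSpace.isOpen_generateFrom_of_mem ⟨d, m, _, rfl⟩, ?_⟩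
    · have h1 := lt_of_le_mul (hE' m _ _ d'.2.smooth d.2.smooth).2 h'
      refine (qm_tri m d'.2.smooth d.2.smooth (dsm d0)).trans_lt (lt_of_le_of_lt ?_ hr)
      rw [add_comm]
      exact add_le_add le_rfl h1.le
    · have h1 := (hE' m _ _ d.2.smooth d.2.smooth).1
      rw [qm_self, mul_zero] at h1
      exact h1.trans_lt (pos m hr0)
  · refine continuous_generateFrom_iff.2 ?_
    rintro _ ⟨d0, m, ε, rfl⟩
    refine isOpen_iff_ball.2 fun d hd => ?_
    have hd' : pn (ds M a) ρ m d.1 d0.1 < ε := hd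
    obtain ⟨r, hr0, hr⟩ := ENNReal.lt_iff_exists_add_pos_lt.1 hd'
    refine ⟨m, r / ENNReal.ofReal (C m), pos m hr0, fun d' h' => ?_⟩
    have h1 := lt_of_le_mul (hE' m _ _ (dsm d') (dsm d)).1 h'
    refine (pn_tri (nice_ds h) ρ0 m (dsm d') (dsm d) d0.2.smooth).trans_lt (lt_of_le_of_lt ?_ hr)
    rw [add_comm]
    exact add_le_add le_rfl h1.le

/-- The Kerr data as a point of DA. -/
noncomputable def kerrPt (hK : KD) (h : |a| < M) : DA M a :=
  ⟨ds M a, (hK M a h).1, (hK M a h).2, fun m => by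
    rw [qm_self]
    exact ENNReal.zero_lt_top⟩

/-- Q1 follows from Q1'. -/
theorem q1_of (hE : EQV) (hK : KD) (hQ : Q1') : Q1 := by
  intro M a ha h
  refine ⟨exists_wt h, fun ρ hρ => ?_⟩
  obtain ⟨e, he⟩ := exists_homeo hE hK h hρ
  obtain ⟨m, η, hη, hm⟩ := hQ M a ha h
  refine ⟨e ⁻¹' BA M a m η, (isOpen_BA (hK M a h).1.1 m η).preimage e.continuous,
    ⟨e.symm (kerrPt hK h), ?_, ?_⟩, ?_⟩
  · rw [mem_preimage, e.apply_symm_apply]
    show qm m (ds M a) (ds M a) < ENNReal.ofReal η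
    rw [qm_self]
    exact ENNReal.ofReal_pos.2 hη
  · rw [← he, e.apply_symm_apply]
    rfl
  · let f : (e ⁻¹' BA M a m η) ≃ₜ BA M a m η := e.subtype fun _ => Iff.rfl
    have := hm.preimage_of_isOpenMap f.continuous f.isOpenMap
    refine this.mono fun d hd => ?_
    have h1 : (f d).1.1 = d.1.1 := he d.1
    show ¬ Good (f d).1.1
    rw [h1]
    exact hd

/-- Q1 follows from KD and Q1'. -/
theorem q1_of' (hK : KD) (hQ : Q1') : Q1 := q1_of eqv hK hQ

end Vale.Agent.P354XQ
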