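import Vale.Agent.P354XQ.Nrm

/-!
Covariant derivatives and coordinate derivatives bound each other.
-/

open Set

namespace Vale.Agent.P354XQ

open Vale.Agent.P354I (X Dat pd)
open Vale.Agent.P354T (Sm)
open Vale.Agent.P354XS

/-- Domination up to a constant. -/
def Dom {α : Type} (f g : α → ℝ) : Prop := ∃ C : ℝ, 0 ≤ C ∧ ∀ x, f x ≤ C * g x

section
variable {α : Type} {f f' g g' : α → ℝ}

lemma Dom.of_le (h : ∀ x, f x ≤ g x) : Dom f g := ⟨1, zero_le_one, fun x => by simpa using h x⟩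

lemma Dom.trans (h : Dom f g) (h' : Dom g g') : Dom f g' := by
  obtain ⟨C, h0, h1⟩ := h
  obtain ⟨C', h0', h1'⟩ := h'
  exact ⟨C * C', by positivity, fun x => (h1 x).trans (by
    rw [mul_assoc]
    exact mul_le_mul_of_nonneg_left (h1' x) h0)⟩

lemma Dom.add (h : Dom f g) (h' : Dom f' g) : Dom (fun x => f x + f' x) g := by
  obtain ⟨C, h0, h1⟩ := h
  obtain ⟨C', h0', h1'⟩ := h'
  exact ⟨C + C', by positivity, fun x => by
    rw [add_mul]
    exact add_le_add (h1 x) (h1' x)⟩

lemma Dom.sum {ι : Type} {s : Finset ι} {F : ι → α → ℝ} (h : ∀ i ∈ s, Dom (F i) g) :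
    Dom (fun x => ∑ i ∈ s, F i x) g := by
  classical
  induction s using Finset.induction_on with
  | empty => exact ⟨0, le_rfl, fun x => by simp⟩
  | insert i s hi ih =>
    simp only [Finset.sum_insert hi]
    exact (h i (Finset.mem_insert_self _ _)).add (ih fun i hi => h i (Finset.mem_insert_of_mem hi))

lemma dom_term {A : ℕ → α → ℝ} (h0 : ∀ i x, 0 ≤ A i x) {i m : ℕ} (h : i ≤ m) :
    Dom (A i) fun x => ∑ i ∈ Finset.range (m + 1), A i x :=
  Dom.of_le fun x => Finset.single_le_sum (f := fun i => A i x) (fun i _ => h0 i x)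
    (Finset.mem_range.2 (by omega))

lemma dom_rec1 {A : ℕ → ℕ → α → ℝ} (h0 : ∀ j l x, 0 ≤ A j l x)
    (r : ∀ j l, Dom (A (j + 1) l) fun x => ∑ i ∈ Finset.range (l + 2), A j i x) (m j : ℕ) :
    ∀ l, j + l ≤ m → Dom (A j l) fun x => ∑ i ∈ Finset.range (m + 1), A 0 i x := by
  induction j with
  | zero => exact fun l hl => dom_term (h0 0) (by omega)
  | succ j ih =>
    exact fun l hl => (r j l).trans (Dom.sum fun i hi => ih i (by
      have := Finset.mem_range.1 hi
      omega))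

lemma dom_rec2 {A : ℕ → ℕ → α → ℝ} (h0 : ∀ j l x, 0 ≤ A j l x)
    (r : ∀ j l, Dom (A j (l + 1)) fun x => A (j + 1) l x + ∑ i ∈ Finset.range (l + 1), A j i x)
    (m l : ℕ) : ∀ j, j + l ≤ m → Dom (A j l) fun x => ∑ i ∈ Finset.range (m + 1), A i 0 x := by
  induction l using Nat.strong_induction_on with
  | _ l ih =>
    intro j hj
    cases l with
    | zero => exact dom_term (A := fun i => A i 0) (fun i => h0 i 0) (by omega)
    | succ l =>
      exact (r j l).trans ((ih l (by omega) (j + 1) (by omega)).add (Dom.sum fun i hi => by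
        have := Finset.mem_range.1 hi
        exact ih i this j (by omega)))

end

variable {k : Dat} {ψ : X → ℝ} {n : ℕ} {y : X}

/-- Smooth tensor fields. -/
def TS (T : Tn n) : Prop := ∀ I, Sm fun y => T y I

/-- The terms with the Christoffel symbols. -/
noncomputable def cor (k : Dat) (T : Tn n) : Tn (n + 1) := fun y I =>
  ∑ p, ∑ l, k.chr l (I 0) (Fin.tail I p) y * T y (Function.update (Fin.tail I) p l)

lemma cov_eq (k : Dat) (T : Tn n) (y : X) (I : Fin (n + 1) → Fin 3) :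
    cov k T y I = pd (I 0) (fun z => T z (Fin.tail I)) y - cor k T y I := rfl

lemma ts_cor (h : Nice k ψ) {T : Tn n} (hT : TS T) : TS (cor k T) := fun _ =>
  sm_sum fun _ _ => sm_sum fun _ _ => sm_mul (h.chr 0 _ _ _).1 (hT _)

lemma ts_cov (h : Nice k ψ) {T : Tn n} (hT : TS T) : TS (cov k T) := fun I =>
  (sm_pd (hT _) _).sub (ts_cor h hT I)

/-- Smooth fields of matrices. -/
def MS (u : X → Matrix (Fin 3) (Fin 3) ℝ) : Prop := ∀ i j, Sm fun y => u y i j

lemma ts_nab (h : Nice k ψ) {u : X → Matrix (Fin 3) (Fin 3) ℝ} (hu : MS u) (j : ℕ) :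
    TS (nab k u j) := by
  induction j with
  | zero => exact fun I => hu _ _
  | succ j ih => exact ts_cov h ih

lemma cov_add {T T' T'' : Tn n} (hT : TS T) (hT' : TS T')
    (e : ∀ y ≠ 0, ∀ I, T'' y I = T y I + T' y I) (hy : y ≠ 0) (I : Fin (n + 1) → Fin 3) :
    cov k T'' y I = cov k T y I + cov k T' y I := by
  rw [cov_eq, cov_eq, cov_eq, pd_congr (fun z hz => e z hz _) _ hy, pd_add (hT _) (hT' _) _ hy]
  simp only [cor, e y hy, mul_add, Finset.sum_add_distrib]
  ring

lemma nab_add (h : Nice k ψ) {u u' u'' : X → Matrix (Fin 3) (Fin 3) ℝ} (hu : MS u) (hu' : MS u')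
    (e : ∀ y ≠ 0, u'' y = u y + u' y) (j : ℕ) :
    ∀ y ≠ 0, ∀ I, nab k u'' j y I = nab k u j y I + nab k u' j y I := by
  induction j with
  | zero => exact fun y hy I => by simp only [nab, e y hy, Matrix.add_apply]
  | succ j ih => exact fun y hy I => cov_add (ts_nab h hu j) (ts_nab h hu' j) ih hy I

/-- The sum of the sizes of the l-th derivatives of the components. -/
noncomputable def N (T : Tn n) (l : ℕ) (y : X) : ℝ := ∑ I, D l (fun z => T z I) y

lemma N_nonneg (T : Tn n) (l : ℕ) (y : X) : 0 ≤ N T l y :=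
  Finset.sum_nonneg fun _ _ => D_nonneg _ _ _

lemma D_le_N (T : Tn n) (l : ℕ) (y : X) (I : Fin n → Fin 3) : D l (fun z => T z I) y ≤ N T l y :=
  Finset.single_le_sum (f := fun I => D l (fun z => T z I) y) (fun _ _ => D_nonneg _ _ _)
    (Finset.mem_univ I)

lemma chr_mul (h : Nice k ψ) (l : ℕ) : ∃ C : ℝ, 0 ≤ C ∧ ∀ a b c f, Sm f → ∀ y ≠ 0,
    ‖y‖ * D l (fun z => k.chr a b c z * f z) y ≤ C * ∑ i ∈ Finset.range (l + 1), D i f y := by
  choose C h0 h1 using fun x : Fin 3 × Fin 3 × Fin 3 => (h.chr l x.1 x.2.1 x.2.2).2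
  have hs : 0 ≤ ∑ x, C x := Finset.sum_nonneg fun x _ => h0 x
  refine ⟨2 ^ l * ∑ x, C x, by positivity, fun a b c f hf y hy => ?_⟩
  have hn := norm_pos_iff.2 hy
  have s0 : 0 ≤ ∑ i ∈ Finset.range (l + 1), D i f y := Finset.sum_nonneg fun _ _ => D_nonneg _ _ _
  refine (mul_le_mul_of_nonneg_left (D_mul_le (h.chr 0 a b c).1 hf l hy) hn.le).trans ?_
  rw [Finset.mul_sum]
  calc ∑ i ∈ Finset.range (l + 1), ‖y‖ * ((l.choose i : ℝ) * D i (k.chr a b c) y * D (l - i) f y)
      ≤ ∑ i ∈ Finset.range (l + 1), (l.choose i : ℝ) *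
          ((∑ x, C x) * ∑ i ∈ Finset.range (l + 1), D i f y) := by
        refine Finset.sum_le_sum fun i hi => ?_
        have hi' : i ≤ l := by have := Finset.mem_range.1 hi; omega
        have a1 := h1 (a, b, c) i hi' y hy
        rw [abs_inv, abs_norm, le_mul_inv_iff₀ hn] at a1
        have a2 : C (a, b, c) ≤ ∑ x, C x :=
          Finset.single_le_sum (fun x _ => h0 x) (Finset.mem_univ _)
        have a3 : D (l - i) f y ≤ ∑ i ∈ Finset.range (l + 1), D i f y :=
          Finset.single_le_sum (f := fun i => D i f y) (fun _ _ => D_nonneg _ _ _)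
            (Finset.mem_range.2 (by omega))
        calc _ = (l.choose i : ℝ) * (D i (k.chr a b c) y * ‖y‖ * D (l - i) f y) := by ring
          _ ≤ _ := mul_le_mul_of_nonneg_left
            (mul_le_mul (a1.trans a2) a3 (D_nonneg _ _ _) hs) (by positivity)
    _ ≤ _ := by
        rw [← Finset.sum_mul, mul_assoc]
        exact mul_le_mul_of_nonneg_right (sum_choose_le le_rfl) (by positivity)

lemma cor_le (h : Nice k ψ) (n l : ℕ) : ∃ C : ℝ, 0 ≤ C ∧ ∀ T : Tn n, TS T → ∀ y ≠ 0, ∀ I,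
    ‖y‖ * D l (fun z => cor k T z I) y ≤ C * ∑ i ∈ Finset.range (l + 1), N T i y := by
  obtain ⟨C, h0, h1⟩ := chr_mul h l
  refine ⟨n * 3 * C, by positivity, fun T hT y hy I => ?_⟩
  have sm : ∀ p a, Sm fun z => k.chr a (I 0) (Fin.tail I p) z *
      T z (Function.update (Fin.tail I) p a) := fun p a => sm_mul (h.chr 0 _ _ _).1 (hT _)
  have a1 : D l (fun z => cor k T z I) y ≤ ∑ p, ∑ a, D l (fun z => k.chr a (I 0) (Fin.tail I p) z *
      T z (Function.update (Fin.tail I) p a)) y :=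
    (D_sum_le (fun p _ => sm_sum fun a _ => sm p a) l hy).trans
      (Finset.sum_le_sum fun p _ => D_sum_le (fun a _ => sm p a) l hy)
  refine (mul_le_mul_of_nonneg_left a1 (norm_nonneg _)).trans ?_
  simp only [Finset.mul_sum _ _ ‖y‖]
  calc _ ≤ ∑ _p : Fin n, ∑ _a : Fin 3, C * ∑ i ∈ Finset.range (l + 1), N T i y :=
        Finset.sum_le_sum fun p _ => Finset.sum_le_sum fun a _ =>
          (h1 _ _ _ _ (hT _) y hy).trans (mul_le_mul_of_nonneg_left
            (Finset.sum_le_sum fun i _ => D_le_N T i y _) h0)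
    _ = _ := by
        simp only [Finset.sum_const, Finset.card_univ, Fintype.card_fin, nsmul_eq_mul]
        push_cast
        ring

lemma cov_le (h : Nice k ψ) (n l : ℕ) : ∃ C : ℝ, 0 ≤ C ∧ ∀ T : Tn n, TS T → ∀ y ≠ 0,
    ‖y‖ * N (cov k T) l y ≤ C * ∑ i ∈ Finset.range (l + 2), N T i y := by
  obtain ⟨C, h0, h1⟩ := cor_le h n l
  refine ⟨3 ^ (n + 1) * (1 + C), by positivity, fun T hT y hy => ?_⟩
  have s0 : 0 ≤ ∑ i ∈ Finset.range (l + 1), N T i y := Finset.sum_nonneg fun _ _ => N_nonneg _ _ _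
  have s1 := N_nonneg T (l + 1) y
  unfold N
  rw [Finset.mul_sum]
  calc _ ≤ ∑ _I : Fin (n + 1) → Fin 3, (1 + C) * ∑ i ∈ Finset.range (l + 2), N T i y := by
        refine Finset.sum_le_sum fun I _ => ?_
        have a1 : D l (fun z => cov k T z I) y ≤ _ :=
          D_sub_le (sm_pd (hT (Fin.tail I)) (I 0)) (ts_cor h hT I) l hy
        have a2 := (D_pd_le (hT (Fin.tail I)) (I 0) l hy).trans (D_le_N T (l + 1) y _)
        have a3 := h1 T hT y hy I
        have a4 := mul_le_mul_of_nonneg_left a1 (norm_nonneg y)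
        rw [Finset.sum_range_succ _ (l + 1)]
        nlinarith [mul_nonneg h0 s1]
    _ = _ := by
        simp only [Finset.sum_const, Finset.card_univ, Fintype.card_fun, Fintype.card_fin,
          nsmul_eq_mul, N]
        push_cast
        ring

lemma le_cov (h : Nice k ψ) (n l : ℕ) : ∃ C : ℝ, 0 ≤ C ∧ ∀ T : Tn n, TS T → ∀ y ≠ 0,
    N T (l + 1) y ≤ C * (‖y‖ * N (cov k T) l y + ∑ i ∈ Finset.range (l + 1), N T i y) := by
  obtain ⟨C, h0, h1⟩ := cor_le h n l
  refine ⟨3 ^ n * 3 * (1 + C), by positivity, fun T hT y hy => ?_⟩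
  have s0 : 0 ≤ ∑ i ∈ Finset.range (l + 1), N T i y := Finset.sum_nonneg fun _ _ => N_nonneg _ _ _
  have s1 := mul_nonneg (norm_nonneg y) (N_nonneg (cov k T) l y)
  calc N T (l + 1) y ≤ ∑ _J : Fin n → Fin 3, ∑ _a : Fin 3,
        (1 + C) * (‖y‖ * N (cov k T) l y + ∑ i ∈ Finset.range (l + 1), N T i y) := by
        refine Finset.sum_le_sum fun J _ => (D_succ_le (hT J) l hy).trans
          (Finset.sum_le_sum fun a _ => ?_)
        have e : pd a (fun z => T z J) = fun z =>
            cov k T z (Fin.cons a J) + cor k T z (Fin.cons a J) := by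
          funext z
          rw [cov_eq, sub_add_cancel, Fin.cons_zero, Fin.tail_cons]
        have a1 := D_add_le (ts_cov h hT (Fin.cons a J)) (ts_cor h hT (Fin.cons a J)) l hy
        have a2 := mul_le_mul_of_nonneg_left (D_le_N (cov k T) l y (Fin.cons a J)) (norm_nonneg y)
        have a3 := h1 T hT y hy (Fin.cons a J)
        have a4 := mul_le_mul_of_nonneg_left a1 (norm_nonneg y)
        rw [e]
        nlinarith [mul_nonneg h0 s1]
    _ = _ := by
        simp only [Finset.sum_const, Finset.card_univ, Fintype.card_fun, Fintype.card_fin,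
          nsmul_eq_mul]
        push_cast
        ring

/-- Pairs of a smooth field of matrices and a point. -/
def PP : Type := {x : (X → Matrix (Fin 3) (Fin 3) ℝ) × X // MS x.1 ∧ x.2 ≠ 0}

/-- The sizes of the coordinate derivatives of order l of the covariant derivative of order j. -/
noncomputable def AN (k : Dat) (j l : ℕ) (x : PP) : ℝ := ‖x.1.2‖ ^ j * N (nab k x.1.1 j) l x.1.2

lemma AN_nonneg (k : Dat) (j l : ℕ) (x : PP) : 0 ≤ AN k j l x :=
  mul_nonneg (by positivity) (N_nonneg _ _ _)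

/-- Covariant derivatives are bounded by coordinate derivatives. -/
theorem nab_le (h : Nice k ψ) {j m : ℕ} (hj : j ≤ m) :
    Dom (AN k j 0) fun x => ∑ i ∈ Finset.range (m + 1), AN k 0 i x := by
  refine dom_rec1 (AN_nonneg k) (fun j l => ?_) m j 0 hj
  obtain ⟨C, h0, h1⟩ := cov_le h (2 + j) l
  refine ⟨C, h0, fun x => ?_⟩
  have := mul_le_mul_of_nonneg_left (h1 _ (ts_nab h x.2.1 j) _ x.2.2)
    (pow_nonneg (norm_nonneg x.1.2) j)
  simp only [AN, ← Finset.mul_sum]
  calc _ = ‖x.1.2‖ ^ j * (‖x.1.2‖ * N (cov k (nab k x.1.1 j)) l x.1.2) := by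
        rw [pow_succ, mul_assoc]
        rfl
    _ ≤ _ := this.trans (le_of_eq (by ring))

/-- Coordinate derivatives are bounded by covariant derivatives. -/
theorem le_nab (h : Nice k ψ) {l m : ℕ} (hl : l ≤ m) :
    Dom (AN k 0 l) fun x => ∑ i ∈ Finset.range (m + 1), AN k i 0 x := by
  refine dom_rec2 (AN_nonneg k) (fun j l => ?_) m l 0 (by omega)
  obtain ⟨C, h0, h1⟩ := le_cov h (2 + j) l
  refine ⟨C, h0, fun x => ?_⟩
  have := mul_le_mul_of_nonneg_left (h1 _ (ts_nab h x.2.1 j) _ x.2.2)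
    (pow_nonneg (norm_nonneg x.1.2) j)
  simp only [AN, ← Finset.mul_sum]
  refine this.trans (le_of_eq ?_)
  have e : N (nab k x.1.1 (j + 1)) l x.1.2 = N (cov k (nab k x.1.1 j)) l x.1.2 := rfl
  rw [e]
  ring

end Vale.Agent.P354XQ
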