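import Vale.Agent.P354XQ.Ker

/-!
The norm of a tensor for a metric of size ψ ^ 2: comparison with the components, and the
triangle inequality.
-/

open scoped MatrixOrder
open Set

namespace Vale.Agent.P354XQ

open Vale.Agent.P354I (X Dat)
open Vale.Agent.P354XS

/-- A frame: A is the product of the transpose of F and F, and E is the inverse of F. -/
lemma exists_frame {A : Matrix (Fin 3) (Fin 3) ℝ} (h : A.PosDef) :
    ∃ E F : Matrix (Fin 3) (Fin 3) ℝ, E * F = 1 ∧ (∀ i j, A i j = ∑ k, F k i * F k j) ∧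
      ∀ i j, A⁻¹ i j = ∑ k, E i k * E j k := by
  obtain ⟨F, hF⟩ := CStarAlgebra.nonneg_iff_eq_star_mul_self.mp h.posSemidef.nonneg
  rw [Matrix.star_eq_conjTranspose, Matrix.conjTranspose_eq_transpose_of_trivial] at hF
  have hd : IsUnit F.det := by
    have := h.det_pos.ne'
    rw [hF, Matrix.det_mul] at this
    exact (right_ne_zero_of_mul this).isUnit
  refine ⟨F⁻¹, F, Matrix.nonsing_inv_mul F hd, fun i j => ?_, fun i j => ?_⟩
  · rw [hF, Matrix.mul_apply]
    rfl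
  · rw [hF, Matrix.mul_inv_rev, ← Matrix.transpose_nonsing_inv, Matrix.mul_apply]
    rfl

variable {n : ℕ}

/-- The components in the frame. -/
noncomputable def fr (E : Matrix (Fin 3) (Fin 3) ℝ) (T : (Fin n → Fin 3) → ℝ) :
    EuclideanSpace ℝ (Fin n → Fin 3) := WithLp.toLp 2 fun K => ∑ I, (∏ p, E (I p) (K p)) * T I

lemma fr_apply (E : Matrix (Fin 3) (Fin 3) ℝ) (T : (Fin n → Fin 3) → ℝ) (K : Fin n → Fin 3) :
    fr E T K = ∑ I, (∏ p, E (I p) (K p)) * T I := rfl

lemma prod_sum (f : Fin n → Fin 3 → ℝ) : ∏ p, ∑ k, f p k = ∑ K : Fin n → Fin 3, ∏ p, f p (K p) := by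
  rw [Finset.prod_univ_sum, Fintype.piFinset_univ]

lemma quad_eq (E : Matrix (Fin 3) (Fin 3) ℝ) (T : (Fin n → Fin 3) → ℝ) :
    √(∑ I, ∑ J, (∏ p, ∑ k, E (I p) k * E (J p) k) * T I * T J) = ‖fr E T‖ := by
  rw [EuclideanSpace.norm_eq]
  congr 1
  simp only [prod_sum, fr_apply, Real.norm_eq_abs, sq_abs, Finset.sum_mul]
  symm
  calc ∑ K : Fin n → Fin 3, (∑ I, (∏ p, E (I p) (K p)) * T I) ^ 2
      = ∑ K : Fin n → Fin 3, ∑ I, ∑ J, (∏ p, E (I p) (K p) * E (J p) (K p)) * T I * T J := by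
        refine Finset.sum_congr rfl fun K _ => ?_
        rw [sq, Finset.sum_mul_sum]
        refine Finset.sum_congr rfl fun I _ => Finset.sum_congr rfl fun J _ => ?_
        rw [Finset.prod_mul_distrib]
        ring
    _ = _ := by
        rw [Finset.sum_comm]
        exact Finset.sum_congr rfl fun I _ => Finset.sum_comm

lemma fr_back {E F : Matrix (Fin 3) (Fin 3) ℝ} (h : E * F = 1) (T : (Fin n → Fin 3) → ℝ)
    (I : Fin n → Fin 3) : T I = ∑ K, (∏ p, F (K p) (I p)) * fr E T K := by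
  have e : ∀ J : Fin n → Fin 3, ∑ K : Fin n → Fin 3, ∏ p, E (J p) (K p) * F (K p) (I p) =
      if J = I then 1 else 0 := fun J => by
    rw [← prod_sum fun p k => E (J p) k * F k (I p)]
    simp only [← Matrix.mul_apply, h, Matrix.one_apply]
    split_ifs with hJ
    · simp [hJ]
    · obtain ⟨p, hp⟩ := Function.ne_iff.1 hJ
      exact Finset.prod_eq_zero (Finset.mem_univ p) (if_neg hp)
  symm
  calc ∑ K, (∏ p, F (K p) (I p)) * fr E T K
      = ∑ K : Fin n → Fin 3, ∑ J, (∏ p, E (J p) (K p) * F (K p) (I p)) * T J := by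
        refine Finset.sum_congr rfl fun K _ => ?_
        rw [fr_apply, Finset.mul_sum]
        refine Finset.sum_congr rfl fun J _ => ?_
        rw [Finset.prod_mul_distrib]
        ring
    _ = ∑ J, (if J = I then 1 else 0) * T J := by
        rw [Finset.sum_comm]
        exact Finset.sum_congr rfl fun J _ => by rw [← Finset.sum_mul, e]
    _ = T I := by simp

lemma fr_add (E : Matrix (Fin 3) (Fin 3) ℝ) (T T' : (Fin n → Fin 3) → ℝ) :
    fr E (fun I => T I + T' I) = fr E T + fr E T' := by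
  ext K
  simp [fr_apply, mul_add, Finset.sum_add_distrib]

lemma abs_prod_le {f : Fin n → ℝ} {c : ℝ} (h : ∀ p, |f p| ≤ c) : |∏ p, f p| ≤ c ^ n := by
  rw [Finset.abs_prod]
  refine (Finset.prod_le_prod (fun _ _ => abs_nonneg _) fun p _ => h p).trans (le_of_eq ?_)
  simp

lemma norm_le_sum (v : EuclideanSpace ℝ (Fin n → Fin 3)) : ‖v‖ ≤ ∑ K, |v K| := by
  rw [EuclideanSpace.norm_eq]
  refine Real.sqrt_le_iff.2 ⟨Finset.sum_nonneg fun _ _ => abs_nonneg _, ?_⟩
  simp only [Real.norm_eq_abs]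
  exact Finset.sum_sq_le_sq_sum_of_nonneg fun _ _ => abs_nonneg _

lemma norm_fr_le {E : Matrix (Fin 3) (Fin 3) ℝ} {c : ℝ} (h : ∀ i k, |E i k| ≤ c)
    (T : (Fin n → Fin 3) → ℝ) : ‖fr E T‖ ≤ (3 * c) ^ n * ∑ I, |T I| := by
  refine (norm_le_sum _).trans ?_
  calc ∑ K, |fr E T K| ≤ ∑ _K : Fin n → Fin 3, c ^ n * ∑ I, |T I| := by
        refine Finset.sum_le_sum fun K _ => ?_
        rw [fr_apply, Finset.mul_sum]
        refine (Finset.abs_sum_le_sum_abs _ _).trans (Finset.sum_le_sum fun I _ => ?_)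
        rw [abs_mul]
        exact mul_le_mul_of_nonneg_right (abs_prod_le fun p => h _ _) (abs_nonneg _)
    _ = _ := by
        simp [mul_pow, mul_assoc]

lemma le_norm_fr {E F : Matrix (Fin 3) (Fin 3) ℝ} (e : E * F = 1) {c : ℝ}
    (h : ∀ i k, |F i k| ≤ c) (T : (Fin n → Fin 3) → ℝ) (I : Fin n → Fin 3) :
    |T I| ≤ (3 * c) ^ n * ‖fr E T‖ := by
  rw [fr_back e T I]
  refine (Finset.abs_sum_le_sum_abs _ _).trans ?_
  calc ∑ K, |(∏ p, F (K p) (I p)) * fr E T K| ≤ ∑ _K : Fin n → Fin 3, c ^ n * ‖fr E T‖ := by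
        refine Finset.sum_le_sum fun K _ => ?_
        rw [abs_mul]
        exact mul_le_mul (abs_prod_le fun p => h _ _) (PiLp.norm_apply_le (fr E T) K)
          (abs_nonneg _) (pow_nonneg ((abs_nonneg _).trans (h 0 0)) n)
    _ = _ := by
        simp [mul_pow, mul_assoc]

variable {k : Dat} {y : X} {ψ : X → ℝ}

lemma nrm_nonneg (k : Dat) (T : Tn n) (y : X) : 0 ≤ nrm k T y := Real.sqrt_nonneg _

/-- The triangle inequality. -/
lemma nrm_add_le (h : (k.h y).PosDef) {T T' T'' : Tn n} (e : ∀ I, T'' y I = T y I + T' y I) :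
    nrm k T'' y ≤ nrm k T y + nrm k T' y := by
  obtain ⟨E, F, -, -, h2⟩ := exists_frame h
  simp only [nrm, h2, quad_eq]
  rw [show T'' y = fun I => T y I + T' y I from funext e, fr_add]
  exact norm_add_le _ _

lemma abs_le_of_sum {f : Fin 3 → ℝ} {C t : ℝ} (hC : 0 ≤ C) (ht : 0 ≤ t)
    (h : |∑ k, f k * f k| ≤ C * t ^ 2) (k : Fin 3) : |f k| ≤ (1 + C) * t := by
  have h1 : f k * f k ≤ ∑ k, f k * f k :=
    Finset.single_le_sum (f := fun k => f k * f k) (fun _ _ => mul_self_nonneg _)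
      (Finset.mem_univ k)
  have h2 := (h1.trans (le_abs_self _)).trans h
  refine abs_le_of_sq_le_sq' ?_ (by positivity) |> abs_le.2
  nlinarith [sq_nonneg t, mul_nonneg hC (sq_nonneg t), mul_nonneg (mul_nonneg hC hC) (sq_nonneg t)]

/-- The norm is comparable to the sum of the components. -/
lemma Nice.nrm_cmp (h : Nice k ψ) : ∃ c : ℝ, 0 < c ∧ ∀ (n : ℕ) (T : Tn n), ∀ y ≠ 0,
    nrm k T y ≤ (c * (ψ y)⁻¹) ^ n * ∑ I, |T y I| ∧ ∀ I, |T y I| ≤ (c * ψ y) ^ n * nrm k T y := by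
  choose C1 h1 h1' using fun i => (h.h 0 i i).2
  choose C2 h2 h2' using fun i => (h.inv 0 i i).2
  have s1 : ∀ i, C1 i ≤ ∑ i, (C1 i + C2 i) := fun i =>
    (le_add_of_nonneg_right (h2 i)).trans (Finset.single_le_sum (f := fun i => C1 i + C2 i)
      (fun i _ => add_nonneg (h1 i) (h2 i)) (Finset.mem_univ i))
  have s2 : ∀ i, C2 i ≤ ∑ i, (C1 i + C2 i) := fun i =>
    (le_add_of_nonneg_left (h1 i)).trans (Finset.single_le_sum (f := fun i => C1 i + C2 i)
      (fun i _ => add_nonneg (h1 i) (h2 i)) (Finset.mem_univ i))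
  set C := ∑ i, (C1 i + C2 i)
  have hC : 0 ≤ C := (h1 0).trans (s1 0)
  refine ⟨3 * (1 + C), by positivity, fun n T y hy => ?_⟩
  obtain ⟨E, F, e, e1, e2⟩ := exists_frame (h.pd y hy)
  have hp := h.pos y hy
  have bE : ∀ i l, |E i l| ≤ (1 + C) * (ψ y)⁻¹ := fun i l => by
    refine abs_le_of_sum (f := fun l => E i l) hC (inv_pos.2 hp).le ?_ l
    have := h2' i 0 le_rfl y hy
    rw [D_zero, e2, abs_of_nonneg (a := (ψ y ^ 2)⁻¹) (by positivity), ← inv_pow] at this
    exact this.trans (mul_le_mul_of_nonneg_right (s2 i) (by positivity))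
  have bF : ∀ l i, |F l i| ≤ (1 + C) * ψ y := fun l i => by
    refine abs_le_of_sum (f := fun l => F l i) hC hp.le ?_ l
    have := h1' i 0 le_rfl y hy
    rw [D_zero, e1, abs_of_nonneg (a := ψ y ^ 2) (by positivity)] at this
    exact this.trans (mul_le_mul_of_nonneg_right (s1 i) (by positivity))
  simp only [nrm, e2, quad_eq]
  rw [mul_assoc, mul_assoc]
  exact ⟨norm_fr_le bE _, le_norm_fr e bF _⟩

end Vale.Agent.P354XQ
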