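import Vale.Agent.P354T.Basic

/-!
Scale invariant sizes of derivatives, and classes of symbols with a weight on X without the
origin.
-/

open scoped ContDiff
open Set Filter Topology

namespace Vale.Agent.P354XQ

open Vale.Agent.P354I (X ee pd)
open Vale.Agent.P354T (Sm iter_add iter_sub)

/-- The scale invariant size of the j-th derivative. -/
noncomputable def D (j : ℕ) (f : X → ℝ) (y : X) : ℝ := ‖y‖ ^ j * ‖iteratedFDeriv ℝ j f y‖

variable {f g : X → ℝ} {y : X}

lemma sm_mul (hf : Sm f) (hg : Sm g) : Sm fun y => f y * g y := ContDiffOn.mul hf hg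

lemma sm_const (c : ℝ) : Sm fun _ => c := contDiffOn_const

lemma sm_sum {ι : Type} {s : Finset ι} {F : ι → X → ℝ} (h : ∀ i ∈ s, Sm (F i)) :
    Sm fun y => ∑ i ∈ s, F i y := ContDiffOn.sum h

lemma sm_fderiv (hf : Sm f) : ContDiffOn ℝ ∞ (fderiv ℝ f) {0}ᶜ :=
  ContDiffOn.fderiv_of_isOpen hf isOpen_compl_singleton (by simp)

lemma sm_pd (hf : Sm f) (i : Fin 3) : Sm (pd i f) := (sm_fderiv hf).clm_apply contDiffOn_const

lemma sm_congr (hf : Sm f) (h : ∀ y ≠ 0, g y = f y) : Sm g := ContDiffOn.congr hf h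

lemma ev_of (h : ∀ y ≠ 0, f y = g y) (hy : y ≠ 0) : f =ᶠ[𝓝 y] g := by
  filter_upwards [isOpen_compl_singleton.mem_nhds hy] with z hz using h z hz

lemma pd_congr (h : ∀ y ≠ 0, f y = g y) (i : Fin 3) (hy : y ≠ 0) : pd i f y = pd i g y := by
  unfold pd
  rw [(ev_of h hy).fderiv_eq]

lemma dif (hf : Sm f) (hy : y ≠ 0) : DifferentiableAt ℝ f y :=
  (hf.at hy).differentiableAt (by simp)

lemma pd_add (hf : Sm f) (hg : Sm g) (i : Fin 3) (hy : y ≠ 0) :
    pd i (fun z => f z + g z) y = pd i f y + pd i g y := by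
  unfold pd
  rw [fderiv_fun_add (dif hf hy) (dif hg hy)]
  rfl

lemma pd_inv (hf : Sm f) (i : Fin 3) (hy : y ≠ 0) (h0 : f y ≠ 0) :
    pd i (fun z => (f z)⁻¹) y = -(pd i f y * (f y)⁻¹ * (f y)⁻¹) := by
  have h := (hasDerivAt_inv h0).comp_hasFDerivAt y (dif hf hy).hasFDerivAt
  have h2 : fderiv ℝ (fun z => (f z)⁻¹) y = -(f y ^ 2)⁻¹ • fderiv ℝ f y := h.fderiv
  unfold pd
  rw [h2]
  simp only [smul_apply, smul_eq_mul]
  field_simp

lemma D_nonneg (j : ℕ) (f : X → ℝ) (y : X) : 0 ≤ D j f y := by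
  unfold D
  positivity

lemma D_zero (f : X → ℝ) (y : X) : D 0 f y = |f y| := by
  simp [D]

lemma D_congr (h : ∀ y ≠ 0, f y = g y) (j : ℕ) (hy : y ≠ 0) : D j f y = D j g y := by
  unfold D
  rw [((ev_of h hy).iteratedFDeriv ℝ j).eq_of_nhds]

lemma D_add_le (hf : Sm f) (hg : Sm g) (j : ℕ) (hy : y ≠ 0) :
    D j (fun z => f z + g z) y ≤ D j f y + D j g y := by
  unfold D
  rw [iter_add hf hg j hy, ← mul_add]
  exact mul_le_mul_of_nonneg_left (norm_add_le _ _) (by positivity)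

lemma D_sub_le (hf : Sm f) (hg : Sm g) (j : ℕ) (hy : y ≠ 0) :
    D j (fun z => f z - g z) y ≤ D j f y + D j g y := by
  unfold D
  rw [iter_sub hf hg j hy, ← mul_add]
  exact mul_le_mul_of_nonneg_left (norm_sub_le _ _) (by positivity)

lemma D_const_succ (c : ℝ) (j : ℕ) (y : X) : D (j + 1) (fun _ => c) y = 0 := by
  unfold D
  rw [iteratedFDeriv_succ_const]
  simp

lemma D_fun_zero (j : ℕ) (y : X) : D j (fun _ => 0) y = 0 := by
  simp [D]

lemma D_sum_le {ι : Type} {s : Finset ι} {F : ι → X → ℝ} (h : ∀ i ∈ s, Sm (F i)) (j : ℕ)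
    (hy : y ≠ 0) : D j (fun z => ∑ i ∈ s, F i z) y ≤ ∑ i ∈ s, D j (F i) y := by
  classical
  induction s using Finset.induction_on with
  | empty => simp [D_fun_zero]
  | insert i s hi ih =>
    simp only [Finset.sum_insert hi]
    have h1 : ∀ i ∈ s, Sm (F i) := fun i hi => h i (Finset.mem_insert_of_mem hi)
    exact (D_add_le (h i (Finset.mem_insert_self _ _)) (sm_sum h1) j hy).trans
      (add_le_add le_rfl (ih h1))

lemma D_mul_le (hf : Sm f) (hg : Sm g) (k : ℕ) (hy : y ≠ 0) :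
    D k (fun z => f z * g z) y ≤
      ∑ i ∈ Finset.range (k + 1), (k.choose i : ℝ) * D i f y * D (k - i) g y := by
  have h := norm_iteratedFDerivWithin_mul_le (n := k) hf hg isOpen_compl_singleton.uniqueDiffOn
    (x := y) hy (by exact_mod_cast le_top)
  have e : ∀ (n : ℕ) (F : X → ℝ), iteratedFDerivWithin ℝ n F {0}ᶜ y = iteratedFDeriv ℝ n F y :=
    fun n F => iteratedFDerivWithin_of_isOpen n isOpen_compl_singleton hy
  simp only [e] at h
  unfold D
  refine (mul_le_mul_of_nonneg_left h (by positivity)).trans (le_of_eq ?_)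
  rw [Finset.mul_sum]
  refine Finset.sum_congr rfl fun i hi => ?_
  have hi' : i ≤ k := by have := Finset.mem_range.1 hi; omega
  have : ‖y‖ ^ k = ‖y‖ ^ i * ‖y‖ ^ (k - i) := by rw [← pow_add, Nat.add_sub_cancel' hi']
  rw [this]
  ring

lemma norm_ee (i : Fin 3) : ‖ee i‖ = 1 := by simp [ee]

lemma D_pd_le (hf : Sm f) (i : Fin 3) (k : ℕ) (hy : y ≠ 0) :
    ‖y‖ * D k (pd i f) y ≤ D (k + 1) f y := by
  have h1 : ContDiffAt ℝ ∞ (fderiv ℝ f) y :=
    (sm_fderiv hf).contDiffAt (isOpen_compl_singleton.mem_nhds hy)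
  have h := (ContinuousLinearMap.apply ℝ ℝ (ee i)).norm_iteratedFDeriv_comp_left h1 (n := k)
    (by exact_mod_cast le_top)
  have h2 : ‖ContinuousLinearMap.apply ℝ ℝ (ee i)‖ ≤ 1 := by
    refine ContinuousLinearMap.opNorm_le_bound _ zero_le_one fun L => ?_
    have := L.le_opNorm (ee i)
    rw [norm_ee] at this
    simpa using this
  rw [norm_iteratedFDeriv_fderiv] at h
  have h3 : ‖iteratedFDeriv ℝ k (pd i f) y‖ ≤ ‖iteratedFDeriv ℝ (k + 1) f y‖ :=
    h.trans (mul_le_of_le_one_left (norm_nonneg _) h2)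
  unfold D
  calc ‖y‖ * (‖y‖ ^ k * ‖iteratedFDeriv ℝ k (pd i f) y‖)
      = ‖y‖ ^ (k + 1) * ‖iteratedFDeriv ℝ k (pd i f) y‖ := by ring
    _ ≤ _ := mul_le_mul_of_nonneg_left h3 (by positivity)

/-- The map c ↦ c dy_i. -/
noncomputable def prj (i : Fin 3) : ℝ →L[ℝ] X →L[ℝ] ℝ :=
  (ContinuousLinearMap.id ℝ ℝ).smulRight (EuclideanSpace.proj i)

lemma norm_prj (i : Fin 3) : ‖prj i‖ ≤ 1 := by
  refine ContinuousLinearMap.opNorm_le_bound _ zero_le_one fun c => ?_
  refine ContinuousLinearMap.opNorm_le_bound _ (by positivity) fun v => ?_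
  have := PiLp.norm_apply_le v i
  simp only [prj, ContinuousLinearMap.smulRight_apply, ContinuousLinearMap.id_apply,
    smul_apply, smul_eq_mul, norm_mul, one_mul]
  exact mul_le_mul_of_nonneg_left this (norm_nonneg _)

lemma fderiv_eq_sum (f : X → ℝ) (z : X) : fderiv ℝ f z = ∑ i, prj i (pd i f z) := by
  ext v
  have hv : v = ∑ i, v i • ee i := by
    ext j
    simp [ee, Fin.sum_univ_three]
    fin_cases j <;> simp
  conv_lhs => rw [hv]
  simp [prj, pd, mul_comm]

lemma D_succ_le (hf : Sm f) (k : ℕ) (hy : y ≠ 0) :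
    D (k + 1) f y ≤ ∑ i, ‖y‖ * D k (pd i f) y := by
  have h1 : ∀ i, ContDiffAt ℝ ∞ (pd i f) y := fun i => (sm_pd hf i).at hy
  have h2 : iteratedFDeriv ℝ k (fderiv ℝ f) y =
      ∑ i, iteratedFDeriv ℝ k (prj i ∘ pd i f) y := by
    have : fderiv ℝ f = ∑ i, prj i ∘ pd i f := by
      funext z
      rw [fderiv_eq_sum]
      simp
    rw [this]
    exact iteratedFDeriv_sum_apply fun i _ =>
      ((prj i).contDiff.contDiffAt.comp y (h1 i)).of_le (by exact_mod_cast le_top)
  have h3 : ‖iteratedFDeriv ℝ (k + 1) f y‖ ≤ ∑ i, ‖iteratedFDeriv ℝ k (pd i f) y‖ := by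
    rw [← norm_iteratedFDeriv_fderiv, h2]
    refine (norm_sum_le _ _).trans (Finset.sum_le_sum fun i _ => ?_)
    exact ((prj i).norm_iteratedFDeriv_comp_left (h1 i) (by exact_mod_cast le_top)).trans
      (mul_le_of_le_one_left (norm_nonneg _) (norm_prj i))
  unfold D
  refine (mul_le_mul_of_nonneg_left h3 (by positivity)).trans (le_of_eq ?_)
  rw [Finset.mul_sum]
  exact Finset.sum_congr rfl fun i _ => by ring

/-- Symbols with the weight w, up to the order k. -/
def S (k : ℕ) (w f : X → ℝ) : Prop :=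
  Sm f ∧ ∃ C : ℝ, 0 ≤ C ∧ ∀ j ≤ k, ∀ y ≠ 0, D j f y ≤ C * |w y|

variable {k : ℕ} {w w' : X → ℝ}

lemma S.congr (h : S k w f) (e : ∀ y ≠ 0, g y = f y) : S k w g := by
  obtain ⟨h1, C, h0, h2⟩ := h
  exact ⟨sm_congr h1 e, C, h0, fun j hj y hy => (D_congr e j hy).trans_le (h2 j hj y hy)⟩

lemma S.mono (h : S k w f) {c : ℝ} (e : ∀ y ≠ 0, |w y| ≤ c * |w' y|) : S k w' f := by
  obtain ⟨h1, C, h0, h2⟩ := h
  refine ⟨h1, C * |c|, by positivity, fun j hj y hy => (h2 j hj y hy).trans ?_⟩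
  rw [mul_assoc]
  exact mul_le_mul_of_nonneg_left ((e y hy).trans
    (mul_le_mul_of_nonneg_right (le_abs_self c) (abs_nonneg _))) h0

lemma S.wt (h : S k w f) (e : ∀ y ≠ 0, w y = w' y) : S k w' f :=
  h.mono (c := 1) fun y hy => by rw [e y hy, one_mul]

lemma S.of_succ (h : S (k + 1) w f) : S k w f := by
  obtain ⟨h1, C, h0, h2⟩ := h
  exact ⟨h1, C, h0, fun j hj => h2 j (by omega)⟩

lemma S.add (h : S k w f) (h' : S k w g) : S k w fun y => f y + g y := by
  obtain ⟨h1, C, h0, h2⟩ := h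
  obtain ⟨h1', C', h0', h2'⟩ := h'
  refine ⟨h1.add h1', C + C', by positivity, fun j hj y hy => (D_add_le h1 h1' j hy).trans ?_⟩
  rw [add_mul]
  exact add_le_add (h2 j hj y hy) (h2' j hj y hy)

lemma S.sub (h : S k w f) (h' : S k w g) : S k w fun y => f y - g y := by
  obtain ⟨h1, C, h0, h2⟩ := h
  obtain ⟨h1', C', h0', h2'⟩ := h'
  refine ⟨h1.sub h1', C + C', by positivity, fun j hj y hy => (D_sub_le h1 h1' j hy).trans ?_⟩
  rw [add_mul]
  exact add_le_add (h2 j hj y hy) (h2' j hj y hy)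

lemma S.const (k : ℕ) (c : ℝ) : S k (fun _ => 1) fun _ => c := by
  refine ⟨sm_const c, |c|, abs_nonneg _, fun j _ y _ => ?_⟩
  cases j with
  | zero => simp [D_zero]
  | succ j => simp [D_const_succ]

lemma S.zero (k : ℕ) (w : X → ℝ) : S k w fun _ => 0 :=
  ⟨sm_const 0, 0, le_rfl, fun j _ y _ => by simp [D_fun_zero]⟩

lemma S.sum {ι : Type} {s : Finset ι} {F : ι → X → ℝ} (h : ∀ i ∈ s, S k w (F i)) :
    S k w fun y => ∑ i ∈ s, F i y := by
  classical
  induction s using Finset.induction_on with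
  | empty => simpa using S.zero k w
  | insert i s hi ih =>
    simp only [Finset.sum_insert hi]
    exact (h i (Finset.mem_insert_self _ _)).add (ih fun i hi => h i (Finset.mem_insert_of_mem hi))

lemma sum_choose_le {j k : ℕ} (h : j ≤ k) :
    ∑ i ∈ Finset.range (j + 1), (j.choose i : ℝ) ≤ 2 ^ k := by
  have : ∑ i ∈ Finset.range (j + 1), (j.choose i : ℝ) = 2 ^ j := by
    exact_mod_cast Nat.sum_range_choose j
  rw [this]
  exact pow_le_pow_right₀ one_le_two h

lemma S.mul (h : S k w f) (h' : S k w' g) : S k (fun y => w y * w' y) fun y => f y * g y := by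
  obtain ⟨h1, C, h0, h2⟩ := h
  obtain ⟨h1', C', h0', h2'⟩ := h'
  refine ⟨sm_mul h1 h1', 2 ^ k * (C * C'), by positivity, fun j hj y hy =>
    (D_mul_le h1 h1' j hy).trans ?_⟩
  calc ∑ i ∈ Finset.range (j + 1), (j.choose i : ℝ) * D i f y * D (j - i) g y
      ≤ ∑ i ∈ Finset.range (j + 1), (j.choose i : ℝ) * (C * |w y| * (C' * |w' y|)) := by
        refine Finset.sum_le_sum fun i hi => ?_
        have hi' : i ≤ j := by have := Finset.mem_range.1 hi; omega
        rw [mul_assoc]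
        exact mul_le_mul_of_nonneg_left (mul_le_mul (h2 i (by omega) y hy)
          (h2' (j - i) (by omega) y hy) (D_nonneg _ _ _) (by positivity)) (by positivity)
    _ ≤ 2 ^ k * (C * |w y| * (C' * |w' y|)) := by
        rw [← Finset.sum_mul]
        exact mul_le_mul_of_nonneg_right (sum_choose_le hj) (by positivity)
    _ = _ := by rw [abs_mul]; ring

lemma S.smul (h : S k w f) (c : ℝ) : S k w fun y => c * f y :=
  ((S.const k c).mul h).wt fun _ _ => one_mul _

lemma S.neg (h : S k w f) : S k w fun y => -f y :=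
  (h.smul (-1)).congr fun _ _ => by ring

lemma S.pd (h : S (k + 1) w f) (i : Fin 3) : S k (fun y => w y * ‖y‖⁻¹) (pd i f) := by
  obtain ⟨h1, C, h0, h2⟩ := h
  refine ⟨sm_pd h1 i, C, h0, fun j hj y hy => ?_⟩
  have hn := norm_pos_iff.2 hy
  have := (D_pd_le h1 i j hy).trans (h2 (j + 1) (by omega) y hy)
  rw [abs_mul, abs_inv, abs_norm, ← mul_assoc, le_mul_inv_iff₀ hn, mul_comm]
  exact this

lemma S.of_pd (h : S 0 w f) (h' : ∀ i, S k (fun y => w y * ‖y‖⁻¹) (P354I.pd i f)) :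
    S (k + 1) w f := by
  obtain ⟨h1, C, h0, h2⟩ := h
  choose C' h0' h2' using fun i => (h' i).2
  have hs : 0 ≤ ∑ i, C' i := Finset.sum_nonneg fun i _ => h0' i
  refine ⟨h1, C + ∑ i, C' i, by positivity, fun j hj y hy => ?_⟩
  have hn := norm_pos_iff.2 hy
  cases j with
  | zero =>
    refine (h2 0 le_rfl y hy).trans (mul_le_mul_of_nonneg_right ?_ (abs_nonneg _))
    linarith
  | succ j =>
    refine (D_succ_le h1 j hy).trans ?_
    rw [add_mul, Finset.sum_mul]
    refine le_trans (Finset.sum_le_sum fun i _ => ?_) (le_add_of_nonneg_left (by positivity))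
    have := h2' i j (by omega) y hy
    rw [abs_mul, abs_inv, abs_norm, ← mul_assoc, le_mul_inv_iff₀ hn, mul_comm] at this
    exact this

lemma S.of_abs (hf : Sm f) {C : ℝ} (h : ∀ y ≠ 0, |f y| ≤ C * |w y|) : S 0 w f := by
  refine ⟨hf, |C|, abs_nonneg _, fun j hj y hy => ?_⟩
  obtain rfl : j = 0 := by omega
  rw [D_zero]
  exact (h y hy).trans (mul_le_mul_of_nonneg_right (le_abs_self _) (abs_nonneg _))

/-- The inverse of an elliptic symbol. -/
lemma S.inv (h : S k w f) {c : ℝ} (hw : ∀ y ≠ 0, w y ≠ 0) (e : ∀ y ≠ 0, |w y| ≤ c * |f y|) :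
    S k (fun y => (w y)⁻¹) fun y => (f y)⁻¹ := by
  have f0 : ∀ y ≠ 0, f y ≠ 0 := fun y hy h0 => by
    have := e y hy
    rw [h0, abs_zero, mul_zero] at this
    exact hw y hy (abs_nonpos_iff.1 this)
  have hs : Sm fun y => (f y)⁻¹ := ContDiffOn.inv h.1 f0
  have h0 : S 0 (fun y => (w y)⁻¹) fun y => (f y)⁻¹ := by
    refine S.of_abs hs (C := c) fun y hy => ?_
    have a1 := abs_pos.2 (f0 y hy)
    have a2 := abs_pos.2 (hw y hy)
    rw [abs_inv, abs_inv, le_mul_inv_iff₀ a2, inv_mul_le_iff₀ a1, mul_comm]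
    exact e y hy
  induction k with
  | zero => exact h0
  | succ k ih =>
    refine h0.of_pd fun i => ?_
    have i1 := ih h.of_succ
    refine ((((h.pd i).mul i1).mul i1).neg.wt fun y hy => ?_).congr fun y hy =>
      pd_inv h.1 i hy (f0 y hy)
    have := hw y hy
    field_simp

/-- The coordinates. -/
lemma S.coord (k : ℕ) (i : Fin 3) : S k (fun y => ‖y‖) fun y => y i := by
  have hs : Sm fun y : X => y i :=
    (EuclideanSpace.proj i : X →L[ℝ] ℝ).contDiff.contDiffOn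
  have h0 : S 0 (fun y => ‖y‖) fun y => y i :=
    S.of_abs hs (C := 1) fun y _ => by simpa using PiLp.norm_apply_le y i
  cases k with
  | zero => exact h0
  | succ k =>
    refine h0.of_pd fun l => ((S.const k (ee l i)).wt fun y hy => ?_).congr fun y _ => ?_
    · rw [mul_inv_cancel₀ (norm_ne_zero_iff.2 hy)]
    · have : fderiv ℝ (fun y : X => y i) y = (EuclideanSpace.proj i : X →L[ℝ] ℝ) :=
        (EuclideanSpace.proj i : X →L[ℝ] ℝ).fderiv
      unfold P354I.pd
      rw [this]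
      rfl

lemma sm_norm : Sm fun y => ‖y‖ := fun y hy =>
  (contDiffAt_norm ℝ (show y ≠ 0 from hy)).contDiffWithinAt

lemma pd_norm (i : Fin 3) (hy : y ≠ 0) : pd i (fun z => ‖z‖) y = y i * ‖y‖⁻¹ := by
  have hn := norm_pos_iff.2 hy
  have h1 := (dif sm_norm hy).hasFDerivAt
  have h2 := (h1.mul h1).unique ((hasStrictFDerivAt_norm_sq y).hasFDerivAt.congr_of_eventuallyEq
    (Eventually.of_forall fun z => by simp [sq]))
  have h3 := congrArg (fun L : X →L[ℝ] ℝ => L (ee i)) h2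
  simp [ee, EuclideanSpace.inner_single_right] at h3
  unfold pd
  simp only [ee]
  field_simp
  linarith

/-- The norm. -/
lemma S.norm (k : ℕ) : S k (fun y => ‖y‖) fun y => ‖y‖ := by
  have h0 : S 0 (fun y => ‖y‖) fun y => ‖y‖ := S.of_abs sm_norm (C := 1) fun y _ => by simp
  induction k with
  | zero => exact h0
  | succ k ih =>
    refine h0.of_pd fun i => ?_
    exact ((S.coord k i).mul (ih.inv (c := 1) (fun y hy => norm_ne_zero_iff.2 hy)
      fun y _ => by simp)).congr fun y hy => pd_norm i hy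

/-- The inverse of the norm. -/
lemma S.norm_inv (k : ℕ) : S k (fun y => ‖y‖⁻¹) fun y => ‖y‖⁻¹ :=
  (S.norm k).inv (c := 1) (fun y hy => norm_ne_zero_iff.2 hy) fun y _ => by simp

end Vale.Agent.P354XQ
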